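import Vale.Agent.P027M.ES.Gen

/-! # P004, block MOD: the upper bound for the dimension of the space of cocycles -/

set_option autoImplicit false

open scoped MatrixGroups

noncomputable section

namespace Vale.Agent.P004M.Es

section
variable {G : Type} [Group G] {V : Type} [AddCommGroup V] [Module ℂ V]

/-- `c` is a cocycle on `Γ` -/
def Coc (ρ : G →* Module.End ℂ V) (Γ : Subgroup G) (c : G → V) : Prop :=
  ∀ γ ∈ Γ, ∀ δ ∈ Γ, c (γ * δ) = c γ + ρ γ (c δ)

variable (ρ : G →* Module.End ℂ V) (Γ : Subgroup G) {ι : Type} [Fintype ι]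

/-- the function on the group attached to coefficients and a function on the cosets -/
def cW (φ : ι → G → V) : ((ι → ℂ) × (G ⧸ Γ → V)) →ₗ[ℂ] (G → V) where
  toFun p g := p.2 (g : G ⧸ Γ) +
    ρ (g : G ⧸ Γ).out (∑ i, p.1 i • φ i (((g : G ⧸ Γ).out)⁻¹ * g))
  map_add' p q := by
    funext g
    simp only [Prod.snd_add, Prod.fst_add, Pi.add_apply, add_smul, Finset.sum_add_distrib, map_add]
    abel
  map_smul' a p := by
    funext g
    simp only [Prod.smul_snd, Prod.smul_fst, Pi.smul_apply, smul_eq_mul, RingHom.id_apply, smul_add,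
      mul_smul, ← Finset.smul_sum, map_smul]

/-- the two differences on the cosets and the value at `1` -/
def cE (t u : G) : (G → V) →ₗ[ℂ] ((G ⧸ Γ → V) × (G ⧸ Γ → V) × V) where
  toFun w := (fun x => w (t * x.out) - ρ t (w x.out), fun x => w (u * x.out) - ρ u (w x.out), w 1)
  map_add' p q := by
    refine Prod.ext (funext fun x => ?_) (Prod.ext (funext fun x => ?_) rfl)
    · simp only [Pi.add_apply, Prod.fst_add, map_add]
      abel
    · simp only [Pi.add_apply, Prod.fst_add, Prod.snd_add, map_add]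
      abel
  map_smul' a p := by
    refine Prod.ext (funext fun x => ?_) (Prod.ext (funext fun x => ?_) rfl)
    · simp only [Pi.smul_apply, RingHom.id_apply, Prod.smul_fst, map_smul, smul_sub]
    · simp only [Pi.smul_apply, RingHom.id_apply, Prod.smul_fst, Prod.smul_snd, map_smul, smul_sub]

theorem out_mem (g : G) : ((g : G ⧸ Γ).out)⁻¹ * g ∈ Γ := by
  rw [← QuotientGroup.eq, QuotientGroup.out_eq']

theorem cW_mul (φ : ι → G → V) (hφ : ∀ i, Coc ρ Γ (φ i)) (p : (ι → ℂ) × (G ⧸ Γ → V)) (g γ : G)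
    (hγ : γ ∈ Γ) : cW ρ Γ φ p (g * γ) = cW ρ Γ φ p g + ρ g (∑ i, p.1 i • φ i γ) := by
  have e : ((g * γ : G) : G ⧸ Γ) = (g : G ⧸ Γ) := QuotientGroup.mk_mul_of_mem g hγ
  show p.2 _ + ρ _ (∑ i, p.1 i • φ i _) = p.2 _ + ρ _ (∑ i, p.1 i • φ i _) + _
  rw [e, add_assoc]
  congr 1
  have e2 : ρ g = ρ (g : G ⧸ Γ).out * ρ (((g : G ⧸ Γ).out)⁻¹ * g) := by
    rw [← map_mul, mul_inv_cancel_left]
  rw [e2, Module.End.mul_apply, ← map_add, map_sum (ρ (_ * g)), ← Finset.sum_add_distrib]
  congr 1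
  refine Finset.sum_congr rfl fun i _ => ?_
  rw [← mul_assoc, hφ i _ (out_mem Γ g) _ hγ, smul_add, map_smul]

theorem Coc.one {c : G → V} (h : Coc ρ Γ c) : c 1 = 0 := by
  have := h 1 Γ.one_mem 1 Γ.one_mem
  rw [one_mul, map_one, Module.End.one_apply] at this
  exact left_eq_add.1 this

theorem coc_core [Γ.FiniteIndex] [FiniteDimensional ℂ V] (m t u : G)
    (hgen : ∀ H : Subgroup G, m ∈ H → t ∈ H → u ∈ H → H = ⊤)
    (hm : m ∈ Γ) (hc : ∀ g, m * g = g * m) (hmm : m * m = 1) (hρ : ρ m = 1)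
    (φ : ι → G → V) (hφ : ∀ i, Coc ρ Γ (φ i))
    (hli : ∀ c : ι → ℂ, (∀ γ ∈ Γ, ∑ i, c i • φ i γ = 0) → c = 0) :
    Fintype.card ι ≤ (Γ.index + 1) * Module.finrank ℂ V := by
  classical
  have : Fintype (G ⧸ Γ) := Fintype.ofFinite _
  have hm0 : ∀ i, φ i m = 0 := fun i => by
    have := hφ i m hm m hm
    rw [hmm, (hφ i).one, hρ, Module.End.one_apply, ← two_smul ℂ] at this
    exact (smul_eq_zero.1 this.symm).resolve_left two_ne_zero
  have inj : Function.Injective ((cE ρ Γ t u).comp (cW ρ Γ φ)) := by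
    rw [injective_iff_map_eq_zero]
    intro p hp
    set w := cW ρ Γ φ p with hw
    have hp' : cE ρ Γ t u w = 0 := hp
    have hmul := cW_mul ρ Γ φ hφ p
    rw [← hw] at hmul
    have ext : ∀ h : G, (∀ x : G ⧸ Γ, w (h * x.out) - ρ h (w x.out) = 0) →
        ∀ g, w (h * g) = ρ h (w g) := by
      intro h hh g
      have e : g = (g : G ⧸ Γ).out * (((g : G ⧸ Γ).out)⁻¹ * g) := by
        rw [mul_inv_cancel_left]
      have a1 := hmul (h * (g : G ⧸ Γ).out) _ (out_mem Γ g)
      have a2 := hmul ((g : G ⧸ Γ).out) _ (out_mem Γ g)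
      rw [mul_assoc, ← e] at a1
      rw [← e] at a2
      rw [a1, a2, map_add, sub_eq_zero.1 (hh g), map_mul, Module.End.mul_apply]
    let H : Subgroup G :=
      { carrier := {h | ∀ g, w (h * g) = ρ h (w g)}
        mul_mem' := fun {a b} ha hb g => by
          rw [mul_assoc, ha, hb, map_mul, Module.End.mul_apply]
        one_mem' := fun g => by rw [one_mul, map_one, Module.End.one_apply]
        inv_mem' := fun {a} ha g => by
          have := ha (a⁻¹ * g)
          rw [mul_inv_cancel_left] at this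
          rw [this, ← Module.End.mul_apply, ← map_mul, inv_mul_cancel, map_one,
            Module.End.one_apply] }
    have hH : H = ⊤ := by
      refine hgen H (fun g => ?_) (ext t fun x => ?_) (ext u fun x => ?_)
      · rw [hc, hmul g m hm, hρ]
        simp [hm0]
      · exact congrFun (congrArg Prod.fst hp') x
      · exact congrFun (congrArg (fun z => z.2.1) hp') x
    have hw1 : w 1 = 0 := congrArg (fun z => z.2.2) hp'
    have hw0 : ∀ g, w g = 0 := fun g => by
      have hg : g ∈ H := hH ▸ Subgroup.mem_top g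
      have := hg 1
      rwa [mul_one, hw1, map_zero] at this
    have hc0 : p.1 = 0 := hli _ fun γ hγ => by
      have := hmul 1 γ hγ
      rw [hw0, hw0, map_one, Module.End.one_apply, zero_add] at this
      exact this.symm
    have hb0 : p.2 = 0 := by
      funext x
      have : p.2 ((x.out : G) : G ⧸ Γ) + ρ _ (∑ i, p.1 i • φ i _) = 0 := hw0 x.out
      rw [hc0, QuotientGroup.out_eq'] at this
      simpa using this
    exact Prod.ext hc0 hb0
  have := LinearMap.finrank_le_finrank_of_injective inj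
  simp only [Module.finrank_prod, Module.finrank_fintype_fun_eq_card, Module.finrank_pi_fintype,
    Finset.sum_const, Finset.card_univ, smul_eq_mul] at this
  rw [Subgroup.index_eq_card, Nat.card_eq_fintype_card, add_mul, one_mul]
  omega

end

open Vale.Agent.P027M.M Vale.Agent.P027M.ES

/-- **the upper bound for the dimension of the space of cocycles** -/
theorem cocd {V : Type} [AddCommGroup V] [Module ℂ V] [FiniteDimensional ℂ V]
    (ρ : SL(2, ℤ) →* Module.End ℂ V) (hρ : ρ (-1) = 1) (Γ : Subgroup SL(2, ℤ)) [Γ.FiniteIndex]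
    (hle : Γ ≤ G0) (hm : -1 ∈ Γ) {ι : Type} [Fintype ι] (φ : ι → SL(2, ℤ) → V)
    (hφ : ∀ i, Coc ρ Γ (φ i)) (hli : LinearIndependent ℂ fun (i : ι) (γ : Γ) => φ i γ) :
    Fintype.card ι ≤ (Γ.relIndex G0 + 1) * Module.finrank ℂ V := by
  have hgen : GEN := gen
  have hcl : ∀ g ∈ ({-1, ModularGroup.T, U4} : Set SL(2, ℤ)), g ∈ G0 := fun g hg => by
    rw [← hgen]
    exact Subgroup.subset_closure hg
  have m0 : (-1 : SL(2, ℤ)) ∈ G0 := hcl _ (by simp)
  have t0 : ModularGroup.T ∈ G0 := hcl _ (by simp)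
  have u0 : U4 ∈ G0 := hcl _ (by simp)
  refine coc_core (G := G0) (ρ.comp G0.subtype) (Γ.subgroupOf G0) ⟨-1, m0⟩ ⟨ModularGroup.T, t0⟩
    ⟨U4, u0⟩ ?_ hm ?_ ?_ hρ (fun i g => φ i g) (fun i γ hγ γ' hγ' => hφ i _ hγ _ hγ') ?_
  · intro H a1 a2 a3
    rw [eq_top_iff]
    intro g _
    have hsub : G0 ≤ H.map G0.subtype := by
      conv_lhs => rw [← hgen]
      rw [Subgroup.closure_le]
      rintro x (rfl | rfl | rfl)
      · exact ⟨_, a1, rfl⟩
      · exact ⟨_, a2, rfl⟩
      · exact ⟨_, a3, rfl⟩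
    obtain ⟨y, hy, e⟩ := hsub g.2
    have : y = g := Subtype.ext e
    exact this ▸ hy
  · intro g
    apply Subtype.ext
    show -1 * (g : SL(2, ℤ)) = g * -1
    simp
  · apply Subtype.ext
    show -1 * (-1 : SL(2, ℤ)) = 1
    simp
  · intro c hc
    funext i
    refine Fintype.linearIndependent_iff.1 hli c ?_ i
    funext γ
    have := hc ⟨γ, hle γ.2⟩ γ.2
    simpa [Finset.sum_apply] using this

end Vale.Agent.P004M.Es
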