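import Vale.Agent.P004M.Es.Lap

/-!
# P004M, row a5: the period map on `M_k ⊕ conj S_k` is injective
-/

set_option autoImplicit false

open UpperHalfPlane Polynomial Filter Topology
open scoped MatrixGroups ModularForm Manifold ComplexConjugate Real

noncomputable section

namespace Vale.Agent.P004M.Es

open Vale.Agent.P022 Vale.Agent.P022K.Sh Vale.Agent.P022K.QT.Cl Vale.Agent.P022.H218.L3

variable {f g p p' : ℍ → ℂ} {w : ℕ} {n : ℝ} {v v' : Fin (w + 1) → ℂ}

theorem ev (w : ℕ) {j : ℕ} (hj : j ≤ w) (t s : ℂ) :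
    ∑ k : Fin (w + 1), ((X - C t) ^ j).coeff k * s ^ (k : ℕ) = (s - t) ^ j := by
  refine (Fin.sum_univ_eq_sum_range (fun k => ((X - C t) ^ j).coeff k * s ^ k) _).trans ?_
  rw [← eval_eq_sum_range' (by rw [natDegree_pow, natDegree_X_sub_C]; omega)]
  simp

theorem nh (hn : 0 < n) (w : ℕ) : ∀ g, Ec n g → ∃ (B : ℕ → ℍ → ℂ) (N : ℍ → ℂ),
    (∀ k ≤ w, Dv (B k) fun s => (s : ℂ) ^ k * g s) ∧ Function.Periodic (N ∘ ofComplex) n ∧
    IsBoundedAtImInfty N ∧
    ∀ τ : ℍ, N τ = ∑ k : Fin (w + 1), ((X - C (τ : ℂ)) ^ w).coeff k * conj (B k τ) := by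
  have h1 : ∀ G w, Ec n G → Function.Periodic ((fun τ : ℍ => (conj (τ : ℂ) - τ) ^ w * conj (G τ)) ∘
      ofComplex) n ∧ IsBoundedAtImInfty fun τ : ℍ => (conj (τ : ℂ) - τ) ^ w * conj (G τ) :=
    fun G w hG => ⟨fun z => by
      have e := hG.pe z
      simp only [Function.comp_apply] at e ⊢
      rw [e]
      by_cases hz : 0 < z.im
      · simp [ofComplex_apply_of_im_pos hz,
          ofComplex_apply_of_im_pos (show 0 < (z + n).im by simpa using hz)]
      · rw [ofComplex_apply_of_im_nonpos (not_lt.1 hz),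
          ofComplex_apply_of_im_nonpos (show (z + n).im ≤ 0 by simpa using hz)],
    ((hG.bdd hn w).norm_left.congr_left fun τ => by simp [norm_sub_rev]).of_norm_left⟩
  induction w with
  | zero =>
    intro g hg
    obtain ⟨G, hG, hD⟩ := hg.prim hn
    exact ⟨fun _ => G, _, fun k hk => by simpa [Nat.le_zero.1 hk] using hD, (h1 G 0 hG).1,
      (h1 G 0 hG).2, fun τ => by simp⟩
  | succ w ih =>
    intro g hg
    obtain ⟨G, hG, hD⟩ := hg.prim hn
    obtain ⟨B, N, h2, h3, h4, h5⟩ := ih G hG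
    refine ⟨fun k s => (s : ℂ) ^ k * G s - k * B (k - 1) s,
      (fun τ : ℍ => (conj (τ : ℂ) - τ) ^ (w + 1) * conj (G τ)) + -((w + 1 : ℕ) : ℂ) • N,
      fun k hk τ => ?_, (h1 G (w + 1) hG).1.add (h3.smul _),
      (h1 G (w + 1) hG).2.add (h4.smul _), fun τ => ?_⟩
    · refine ((dv_mul (dv_of fun s => hasDerivAt_pow k (s : ℂ)) hD τ).fun_sub
        ((h2 (k - 1) (by omega) τ).const_mul (k : ℂ))).congr_deriv ?_
      ring
    · simp only [Pi.add_apply, Pi.smul_apply, h5, map_sub, map_mul, map_pow, mul_sub, map_natCast,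
        Finset.sum_sub_distrib, ← mul_assoc, ← Finset.sum_mul, ev (w + 1) le_rfl, smul_eq_mul]
      rw [Fin.sum_univ_succ (n := w + 1), neg_mul, ← sub_eq_add_neg, Finset.mul_sum]
      simp only [Fin.val_zero, Nat.cast_zero, mul_zero, zero_mul, zero_add, Fin.val_succ,
        Nat.add_sub_cancel, Nat.cast_succ, ← coeff_derivative, derivative_X_sub_C_pow,
        coeff_C_mul, mul_assoc]

/-- the pairing with `(X - t) ^ w` -/
def pq (w : ℕ) (t : ℂ) (x : Fin (w + 1) → ℂ) : ℂ := ∑ k : Fin (w + 1), ((X - C t) ^ w).coeff k * x k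

theorem det_SL (γ : SL(2, ℤ)) : (γ : GL (Fin 2) ℝ).val.det = 1 :=
  congrArg Units.val (Matrix.SpecialLinearGroup.det_mapGL (S := ℝ) γ)

theorem pq_act (γ : SL(2, ℤ)) (τ : ℍ) (x : Fin (w + 1) → ℂ) :
    pq w (γ • τ : ℍ) ((sy w (cx γ)).mulVec x) * denom γ τ ^ w = pq w τ x := by
  have e : ∀ t x, pq w t x = (sy w (bm t)).mulVec x 0 := fun t x =>
    Finset.sum_congr rfl fun k _ => congrArg (· * x k) (sy_bm w t k).symm
  rw [e, Matrix.mulVec_mulVec, ← map_mul]
  simp only [pq, Matrix.mulVec, dotProduct, Finset.sum_mul]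
  refine Finset.sum_congr rfl fun k _ => ?_
  have h3 : ((γ • τ : ℍ) : ℂ) * _ = _ := H227.coe_smul' (γ : GL (Fin 2) ℝ) (det_SL γ ▸ one_pos) τ
  have h4 : denom (γ : GL (Fin 2) ℝ) τ =
      ((γ : GL (Fin 2) ℝ) 1 0 : ℝ) * (τ : ℂ) + ((γ : GL (Fin 2) ℝ) 1 1 : ℝ) := rfl
  have h5 := congrArg Complex.ofReal (det_SL γ)
  rw [Matrix.det_fin_two] at h5
  push_cast at h5
  have h6 : C (denom (γ : GL (Fin 2) ℝ) τ ^ w) * mon w (bm (γ • τ : ℍ) * cx γ) 0 =
      (X - C (τ : ℂ)) ^ w := by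
    have e1 : denom (γ : GL (Fin 2) ℝ) τ * (bm (γ • τ : ℍ) * cx γ) 1 0 = 1 := by
      simp only [Matrix.mul_apply, Fin.sum_univ_two, Matrix.map_apply]
      simp only [Matrix.of_apply, Matrix.cons_val', Matrix.cons_val_zero, Matrix.cons_val_one,
        Matrix.cons_val_fin_one]
      linear_combination h5 - ((γ : GL (Fin 2) ℝ) 1 0 : ℝ) * h3 + ((γ : GL (Fin 2) ℝ) 0 0 : ℝ) * h4
    have e2 : denom (γ : GL (Fin 2) ℝ) τ * (bm (γ • τ : ℍ) * cx γ) 1 1 = -τ := by
      simp only [Matrix.mul_apply, Fin.sum_univ_two, Matrix.map_apply]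
      simp only [Matrix.of_apply, Matrix.cons_val', Matrix.cons_val_zero, Matrix.cons_val_one,
        Matrix.cons_val_fin_one]
      linear_combination (-(τ : ℂ)) * h5 - ((γ : GL (Fin 2) ℝ) 1 1 : ℝ) * h3 +
        ((γ : GL (Fin 2) ℝ) 0 1 : ℝ) * h4
    rw [mon, pow_zero, one_mul, Nat.sub_zero, C_pow, ← mul_pow, mul_add, ← mul_assoc, ← C_mul,
      ← C_mul, e1, e2, C_1, one_mul, C_neg, sub_eq_add_neg]
  rw [← h6, coeff_C_mul, sy_apply]
  simp only [Fin.val_zero]
  ring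

theorem pf_SL (hm : MDiff f) (γ : SL(2, ℤ)) (τ : ℍ) : pf w f (γ • τ) =
    pf w f (γ • I) + (sy w (cx γ)).mulVec (pf w (f ∣[((w : ℤ) + 2)] γ) τ) := by
  have h1 := pf_act w hm (g' := f ∣[((w : ℤ) + 2)] γ) (hm.slash _ _) γ (det_SL γ ▸ one_pos)
    (c := 1) (fun σ => by
      rw [ModularForm.SL_slash_apply, show -((w : ℤ) + 2) = -((w + 2 : ℕ) : ℤ) by push_cast; ring,
        zpow_neg, zpow_natCast, det_SL, one_mul, Complex.ofReal_one, one_mul,
        inv_mul_cancel_right₀ (pow_ne_zero _ (denom_ne_zero _ _))]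
      rfl) τ
  rwa [one_smul] at h1

theorem star_sy (α : GL (Fin 2) ℝ) (x : Fin (w + 1) → ℂ) :
    star ((sy w (cx α)).mulVec x) = (sy w (cx α)).mulVec (star x) := by
  rw [show cx α = α.val.map Complex.ofRealHom from rfl, sy_map]
  funext k
  simp [Matrix.mulVec, dotProduct]

/-- the function of weight `- w` -/
def uu (w : ℕ) (f g : ℍ → ℂ) (v : Fin (w + 1) → ℂ) (τ : ℍ) : ℂ :=
  pq w τ (pf w f τ + star (pf w g τ) + v)

theorem uu_act (hf : MDiff f) (hg : MDiff g) (γ : SL(2, ℤ))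
    (e : pf w f (γ • I) + star (pf w g (γ • I)) + v = (sy w (cx γ)).mulVec v') :
    uu w f g v ∣[(-(w : ℤ))] γ = uu w (f ∣[((w : ℤ) + 2)] γ) (g ∣[((w : ℤ) + 2)] γ) v' := by
  funext τ
  rw [ModularForm.SL_slash_apply, neg_neg, zpow_natCast, uu, uu, ← pq_act γ τ, pf_SL hf, pf_SL hg,
    Matrix.mulVec_add, Matrix.mulVec_add, ← e, star_add, star_sy]
  congr 2
  abel

theorem uu_bdd (hn : 0 < n) (hf : MDiff f) (hb : IsBoundedAtImInfty f) (hg : Ec n g)
    (hu : Function.Periodic (uu w f g v ∘ ofComplex) n) : IsBoundedAtImInfty (uu w f g v) := by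
  obtain ⟨B, N, h2, h3, h4, h5⟩ := nh hn w g hg
  choose c hc using fun k : Fin (w + 1) => H227.eqConst_of_deriv
    (G := fun τ => pf w g τ k - B k τ) fun τ => by
      simpa [Function.comp_def] using (pf_dv w hg.md k τ).fun_sub (h2 k (Nat.lt_succ_iff.1 k.2) τ)
  let A : ℕ → ℍ → ℂ := fun i τ => if h : i < w + 1 then (pf w f τ + (star c + v)) ⟨i, h⟩ else 0
  have hF : H227.Eich w f (uu w f g v - N) := by
    refine ⟨A, fun j hj τ => ?_, fun τ => ?_⟩
    · simp only [A, dif_pos (Nat.lt_succ_iff.2 hj)]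
      exact (pf_dv w hf ⟨j, Nat.lt_succ_iff.2 hj⟩ τ).add_const _
    · refine Eq.trans ?_ (Fin.sum_univ_eq_sum_range
        (fun i => ((X - C (τ : ℂ)) ^ w).coeff i * A i τ) (w + 1))
      rw [Pi.sub_apply, h5, uu, pq, ← Finset.sum_sub_distrib]
      refine Finset.sum_congr rfl fun k _ => ?_
      simp only [A, dif_pos k.2, Pi.add_apply, Pi.star_apply, ← hc k τ, RCLike.star_def, map_sub]
      ring
  obtain ⟨C, A0, hA0, hC, h6⟩ := hF.growth hb
  have := (H227.bdd_of_growth hF.mdiff hn (hu.sub h3) _ hC hA0 h6).add h4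
  rwa [sub_add_cancel] at this

theorem cf_dv (w k : ℕ) : Dv (fun s => ((X - C (s : ℂ)) ^ w).coeff k)
    fun s => -(w : ℂ) * ((X - C (s : ℂ)) ^ (w - 1)).coeff k :=
  dv_of (A := fun z => ((X - C z) ^ w).coeff k) fun s => H227.diff_coeff w k s

theorem uu_cont (hf : MDiff f) (hg : MDiff g) : Continuous (uu w f g v) := by
  unfold uu pq
  exact continuous_finsetSum _ fun (k : Fin (w + 1)) _ => (dv_md (cf_dv w k)).continuous.mul
    (((dv_md (pf_dv w hf k)).continuous.add (dv_md (pf_dv w hg k)).continuous.star).add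
      continuous_const)

theorem lp_uu (hf : MDiff f) (hg : MDiff g) (hp : Dv p p') (τ : ℍ) :
    Lp (fun s => p s * uu w f g v s) τ (conj (g τ) *
      (p' τ * (conj (τ : ℂ) - τ) ^ w - w * p τ * (conj (τ : ℂ) - τ) ^ (w - 1))) := by
  have h := Lp.sum Finset.univ fun k : Fin (w + 1) =>
    (lp_mul (dv_mul (dv_mul hp (cf_dv w k)) (b := fun s => pf w f s k + v k) fun s =>
      (pf_dv w hf k s).add_const (v k)) (dv_of fun s => hasDerivAt_const (s : ℂ) (1 : ℂ)) τ).add
      (lp_mul (dv_mul hp (cf_dv w k)) (pf_dv w hg k) τ)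
  convert h using 1
  · funext s
    rw [uu, pq, Finset.mul_sum]
    refine Finset.sum_congr rfl fun k _ => ?_
    simp only [Pi.add_apply, Pi.star_apply, RCLike.star_def, map_one]
    ring
  · rw [← ev w le_rfl, ← ev w (Nat.sub_le w 1), Finset.mul_sum, Finset.mul_sum,
      ← Finset.sum_sub_distrib, Finset.mul_sum]
    refine Finset.sum_congr rfl fun k _ => ?_
    simp only [map_zero, map_mul, map_pow]
    ring

theorem ht_act (m : ℕ) (u : ℍ → ℂ) (γ : SL(2, ℤ)) (τ : ℍ) :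
    ‖u (γ • τ)‖ / (γ • τ).im ^ m = ‖(u ∣[(-((2 * m : ℕ) : ℤ))] γ) τ‖ / τ.im ^ m := by
  rw [ModularForm.SL_slash_apply, neg_neg, zpow_natCast, ModularGroup.im_smul_eq_div_normSq,
    norm_mul, norm_pow, pow_mul, Complex.sq_norm, div_pow, div_div_eq_mul_div]

/-- at a maximum of `|u| / y ^ m` the function `u` vanishes -/
theorem uu_max {m : ℕ} (hm : m ≠ 0) (hf : MDiff f) (hg : MDiff g) {v : Fin (2 * m + 1) → ℂ} {τ : ℍ}
    (h : ∀ s : ℍ, ‖uu (2 * m) f g v s‖ / s.im ^ m ≤ ‖uu (2 * m) f g v τ‖ / τ.im ^ m) :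
    uu (2 * m) f g v τ = 0 := by
  set u := uu (2 * m) f g v
  have h0 : ∀ s : ℍ, (s : ℂ) - conj (τ : ℂ) ≠ 0 := fun s e => by
    have := congrArg Complex.im e
    simp at this
    linarith [s.im_pos, τ.im_pos]
  let r : ℍ → ℂ := fun s => ((s : ℂ) - conj (τ : ℂ))⁻¹
  let z : ℍ → ℂ := fun s => ((s : ℂ) - τ) * r s
  let c := r τ ^ (2 * m) * u τ
  have r0 : r τ ≠ 0 := inv_ne_zero (h0 τ)
  have dr := fun s : ℍ => ((hasDerivAt_id (s : ℂ)).sub_const (conj (τ : ℂ))).fun_inv (h0 s)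
  have dz := dv_of fun s : ℍ => ((hasDerivAt_id (s : ℂ)).sub_const (τ : ℂ)).fun_mul (dr s)
  have h1 := ((lp_uu (w := 2 * m) (v := v) hf hg
    (dv_of fun s => ((dr s).fun_pow (2 * m)).const_mul (conj c)) τ).add
    (lp_mul (dv_mul (dv_of fun s => hasDerivAt_const (s : ℂ) (conj c * c)) dz) dz τ)).le fun s => by
      have q : ∀ s : ℍ, ‖r s‖ ^ 2 * s.im = (1 - ‖z s‖ ^ 2) / (4 * τ.im) := fun s => by
        have := τ.im_pos
        have h2 := Complex.normSq_pos.2 (h0 s)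
        simp only [r, z, norm_mul, norm_inv, mul_pow, inv_pow, Complex.sq_norm]
        field_simp
        simp [Complex.normSq_apply]
        ring
      have q2 : ∀ s : ℍ, ‖r s ^ (2 * m) * u s‖ =
          ‖u s‖ / s.im ^ m / (4 * τ.im) ^ m * (1 - ‖z s‖ ^ 2) ^ m := fun s => by
        have := s.im_pos
        rw [div_mul_eq_mul_div, mul_div_assoc, ← div_pow, ← q, norm_mul, norm_pow, pow_mul, mul_pow]
        field_simp
      have z0 : z τ = 0 := by simp [z]
      have q3 : 0 ≤ 1 - ‖z s‖ ^ 2 := by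
        have := τ.im_pos
        have h2 := q s
        rw [eq_div_iff (by positivity)] at h2
        have := s.im_pos
        rw [← h2]
        positivity
      have q4 : ‖r s ^ (2 * m) * u s‖ ≤ ‖c‖ * (1 - ‖z s‖ ^ 2) := by
        have := τ.im_pos
        rw [q2, q2, z0]
        simp only [norm_zero, ne_eq, OfNat.ofNat_ne_zero, not_false_eq_true, zero_pow, sub_zero,
          one_pow, mul_one]
        exact mul_le_mul (div_le_div_of_nonneg_right (h s) (by positivity))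
          (pow_le_of_le_one q3 (sub_le_self _ (sq_nonneg _)) hm) (by positivity) (by positivity)
      change (conj c * r s ^ (2 * m) * u s + conj c * c * z s * conj (z s)).re ≤
        (conj c * r τ ^ (2 * m) * u τ + conj c * c * z τ * conj (z τ)).re
      have q5 := (Complex.re_le_norm (conj c * (r s ^ (2 * m) * u s))).trans
        ((norm_mul _ _).trans_le (mul_le_mul_of_nonneg_left q4 (norm_nonneg _)))
      rw [z0, mul_assoc, mul_assoc _ (z s), mul_assoc _ _ (u τ), Complex.mul_conj',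
        show r τ ^ (2 * m) * u τ = c from rfl, Complex.conj_mul', Complex.add_re, mul_zero,
        zero_mul, add_zero]
      norm_cast
      rw [Complex.norm_conj] at q5
      linarith
  obtain ⟨j, hj⟩ : ∃ j, 2 * m = j + 1 := ⟨2 * m - 1, by omega⟩
  have e : ∀ a b : ℂ, a = 0 → b = r τ → (conj (g τ) * a + (0 * z τ + conj c * c * b) * conj b).re ≤
      0 → c = 0 := fun a b ha hb e => by
    rw [ha, hb, zero_mul, zero_add, mul_zero, zero_add, mul_assoc, Complex.mul_conj',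
      Complex.conj_mul'] at e
    norm_cast at e
    exact norm_eq_zero.1 (pow_eq_zero_iff two_ne_zero |>.1 (le_antisymm
      (nonpos_of_mul_nonpos_left e (by positivity)) (sq_nonneg _)))
  refine (mul_eq_zero.1 (e _ _ ?_ (by simp [r]) h1)).resolve_left (pow_ne_zero _ r0)
  have := h0 τ
  simp only [id, hj, Nat.add_sub_cancel, ← neg_sub (τ : ℂ), neg_pow ((τ : ℂ) - _), inv_pow]
  field_simp
  ring

/-- **injectivity** -/
theorem inj2 (Γ : Subgroup SL(2, ℤ)) [Γ.FiniteIndex] {m : ℕ} (hm : m ≠ 0)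
    (hf : IsMF Γ ((2 * m + 2 : ℕ) : ℤ) f) (hg : IsMF Γ ((2 * m + 2 : ℕ) : ℤ) g)
    (hz : ∀ δ : SL(2, ℤ), IsZeroAtImInfty (g ∣[((2 * m + 2 : ℕ) : ℤ)] δ))
    (v : Fin (2 * m + 1) → ℂ) (h : ∀ γ ∈ Γ, pf (2 * m) f (γ • I) + star (pf (2 * m) g (γ • I)) =
      (sy (2 * m) (cx γ)).mulVec v - v) : f = 0 ∧ g = 0 ∧ v = 0 := by
  have ew : ((2 * m + 2 : ℕ) : ℤ) = ((2 * m : ℕ) : ℤ) + 2 := rfl
  rw [ew] at hf hg hz
  have mf := mem_Hol.1 hf.hol
  have mg := mem_Hol.1 hg.hol
  have hi : ∀ γ ∈ Γ, uu (2 * m) f g v ∣[(-((2 * m : ℕ) : ℤ))] γ = uu (2 * m) f g v :=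
    fun γ hγ => by rw [uu_act mf mg γ (eq_sub_iff_add_eq.1 (h γ hγ)), hf.slash γ hγ, hg.slash γ hγ]
  obtain ⟨τ, hτ⟩ := ex_max Γ (h := fun s => ‖uu (2 * m) f g v s‖ / s.im ^ m)
    ((uu_cont mf mg).norm.div (continuous_im.pow m) fun s => pow_ne_zero _ s.im_pos.ne')
    (fun s => by have := s.im_pos; positivity) (fun γ hγ s => by rw [ht_act, hi γ hγ]) fun δ => by
      obtain ⟨n, hn, -, hmem⟩ := Subgroup.exists_pow_mem_of_index_ne_zero
        (H := Γ) Subgroup.FiniteIndex.index_ne_zero (δ * ModularGroup.T * δ⁻¹)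
      have pe : ∀ (k : ℤ) (F : ℍ → ℂ), (∀ γ ∈ Γ, F ∣[k] γ = F) →
          Function.Periodic ((F ∣[k] δ) ∘ ofComplex) (n : ℝ) := fun k F hF =>
        H227.periodic_of_T (k := k) (by
          rw [← SlashAction.slash_mul, show δ * ModularGroup.T ^ n =
            (δ * ModularGroup.T * δ⁻¹) ^ n * δ by rw [conj_pow]; group, SlashAction.slash_mul,
            hF _ hmem])
      have e := uu_act mf mg δ (v := v) (v' := (sy (2 * m) (cx (δ⁻¹ : SL(2, ℤ)))).mulVec
        (pf (2 * m) f (δ • I) + star (pf (2 * m) g (δ • I)) + v)) (by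
          rw [Matrix.mulVec_mulVec, ← map_mul, show cx δ * cx (δ⁻¹ : SL(2, ℤ)) = 1 from ?_,
            map_one, Matrix.one_mulVec]
          refine (Matrix.map_mul (f := Complex.ofRealHom)).symm.trans ?_
          rw [← Units.val_mul, ← map_mul, ← map_mul, mul_inv_cancel, map_one, map_one, Units.val_one,
            Matrix.map_one _ (map_zero _) (map_one _)])
      have hb := uu_bdd (Nat.cast_pos.2 hn) (mf.slash _ _) (hf.bdd δ)
        ⟨mg.slash _ _, pe _ _ hg.slash, hz δ⟩ (e ▸ pe _ _ hi)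
      simp only [ht_act, e]
      simp only [div_eq_mul_inv]
      refine (Asymptotics.isLittleO_one_iff ℝ).1 ((hb.norm_left.mul_isLittleO
        ((Asymptotics.isLittleO_one_iff ℝ).2 ?_)).congr_right fun _ => mul_one 1)
      exact ((tendsto_pow_atTop hm).comp tendsto_comap).inv_tendsto_atTop
  have u0 : ∀ s, uu (2 * m) f g v s = 0 := fun s => by
    have h1 := hτ s
    have := s.im_pos
    rw [uu_max hm mf mg hτ, norm_zero, zero_div, div_le_iff₀ (by positivity), zero_mul] at h1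
    exact norm_le_zero_iff.1 h1
  have g0 : g = 0 := funext fun s => by
    set c := conj (g s) * (conj (s : ℂ) - s) ^ (2 * m) with hc
    have h1 := (lp_uu (w := 2 * m) (v := v) mf mg (dv_of fun t =>
      ((hasDerivAt_id (t : ℂ)).sub_const (s : ℂ)).const_mul (conj c)) s).le fun t => by simp [u0]
    simp only [id, sub_self, mul_zero, zero_mul, sub_zero, mul_one] at h1
    rw [mul_left_comm, ← hc, Complex.conj_mul'] at h1
    norm_cast at h1
    have h2 : c = 0 := by simpa using h1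
    refine (map_eq_zero conj).1 ((mul_eq_zero.1 h2).resolve_right (pow_ne_zero _ fun e => ?_))
    have := congrArg Complex.im e
    simp at this
    linarith [s.im_pos]
  have p0 : ∀ s, pf (2 * m) 0 s = 0 := fun s => by
    simpa using (pf_lin (2 * m) (∅ : Finset Unit) (g := fun _ => 0) (fun _ => mdifferentiable_const)
      (f := 0) mdifferentiable_const (c := 1) (by simp) s).symm
  have f0 : f = 0 := inj Γ mf hf.bdd hf.slash v fun γ hγ => by simpa [g0, p0] using h γ hγ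
  refine ⟨f0, g0, funext fun k => ?_⟩
  have h1 : (∑ k : Fin (2 * m + 1), monomial (2 * m - k)
      ((-1) ^ (2 * m - k) * ((2 * m).choose k : ℂ) * v k)) = 0 :=
    eq_zero_of_infinite_isRoot _ (Set.infinite_of_injective_forall_mem
      (f := fun s : ℍ => (s : ℂ)) (fun _ _ => UpperHalfPlane.ext) fun s => by
        refine Eq.trans ?_ (u0 s)
        simp only [uu, pq, f0, g0, p0, star_zero, zero_add, eval_finsetSum, eval_monomial,
          H227.coeff_pow', neg_pow (s : ℂ)]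
        exact Finset.sum_congr rfl fun k _ => by ring)
  have h2 := congrArg (coeff · (2 * m - k)) h1
  simp only [finsetSum_coeff, coeff_monomial, coeff_zero] at h2
  rw [Finset.sum_eq_single k (fun j _ hj => if_neg fun e => hj (Fin.ext (by omega))) (by simp),
    if_pos rfl] at h2
  simpa [(Nat.choose_pos (Nat.lt_succ_iff.1 k.2)).ne'] using h2

end Vale.Agent.P004M.Es
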