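import Vale.Agent.P004M.Es.Dim
import Vale.Agent.P004M.Es.Coc
import Vale.Agent.P004M.Es.Inj
import Vale.Agent.P027M.ES.All

/-! # P004, block MOD: the map of Eichler and Shimura is onto in every even weight -/

set_option autoImplicit false

open UpperHalfPlane Polynomial
open scoped MatrixGroups Manifold ModularForm Real

noncomputable section

namespace Vale.Agent.P004M.Es

open Vale.Agent.P022.H218.L3 Vale.Agent.P027M.M Vale.Agent.P022K.Sh Vale.Agent.P022K.QT.Cl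

theorem cx_mul (α β : GL (Fin 2) ℝ) : cx (α * β) = cx α * cx β :=
  Matrix.map_mul (f := Complex.ofRealHom)

theorem cx_SL (γ : SL(2, ℤ)) (i j : Fin 2) : cx γ i j = (γ i j : ℤ) := by
  simp [Matrix.map_apply]

/-- the representation on the vectors of monomials -/
def rho (w : ℕ) : SL(2, ℤ) →* Module.End ℂ (Fin (w + 1) → ℂ) where
  toFun γ := Matrix.mulVecLin (sy w (cx γ))
  map_one' := by
    have : cx ((1 : SL(2, ℤ)) : GL (Fin 2) ℝ) = 1 := by
      ext i j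
      rw [cx_SL]
      fin_cases i <;> fin_cases j <;> simp
    rw [this, map_one, Matrix.mulVecLin_one]
    rfl
  map_mul' γ δ := by
    have : cx ((γ * δ : SL(2, ℤ)) : GL (Fin 2) ℝ) = cx γ * cx δ := by
      rw [← cx_mul]
      exact congrArg cx (map_mul (Matrix.SpecialLinearGroup.mapGL ℝ) γ δ)
    rw [this, map_mul, Matrix.mulVecLin_mul]
    rfl

theorem rho_apply (w : ℕ) (γ : SL(2, ℤ)) (v : Fin (w + 1) → ℂ) :
    rho w γ v = (sy w (cx γ)).mulVec v := rfl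

theorem rho_neg (m : ℕ) : rho (2 * m) (-1) = 1 := by
  have : sy (2 * m) (cx ((-1 : SL(2, ℤ)) : GL (Fin 2) ℝ)) = 1 := by
    rw [← map_one (sy (2 * m))]
    ext j k
    have e : mon (2 * m) (cx ((-1 : SL(2, ℤ)) : GL (Fin 2) ℝ)) j = mon (2 * m) 1 j := by
      have h1 : (-1 : ℂ[X]) ^ (j : ℕ) * (-1) ^ (2 * m - j) = 1 := by
        rw [← pow_add, Nat.add_sub_cancel' (Nat.lt_succ_iff.1 j.2), pow_mul]
        simp
      simp only [mon, cx_SL]
      simp
      rw [neg_pow (X : ℂ[X]), mul_right_comm, h1, one_mul]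
    rw [sy_apply, sy_apply, e]
  refine LinearMap.ext fun v => ?_
  rw [rho_apply, this, Matrix.one_mulVec]
  rfl

theorem coc_pf {Γ : Subgroup SL(2, ℤ)} {m : ℕ} {f : ℍ → ℂ}
    (hf : IsMF Γ ((2 * m + 2 : ℕ) : ℤ) f) :
    Coc (rho (2 * m)) Γ fun γ => pf (2 * m) f (γ • I) := fun γ hγ δ _ => by
  have := pf_SL (w := 2 * m) hf.hol γ (δ • I)
  rw [show ((2 * m : ℕ) : ℤ) + 2 = ((2 * m + 2 : ℕ) : ℤ) from rfl, hf.slash γ hγ] at this
  simpa only [mul_smul, rho_apply] using this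

theorem coc_star {Γ : Subgroup SL(2, ℤ)} {w : ℕ} {c : SL(2, ℤ) → Fin (w + 1) → ℂ}
    (h : Coc (rho w) Γ c) : Coc (rho w) Γ fun γ => star (c γ) := fun γ hγ δ hδ => by
  simp only [h γ hγ δ hδ, star_add, rho_apply, star_sy]

theorem coc_bd (Γ : Subgroup SL(2, ℤ)) {w : ℕ} (v : Fin (w + 1) → ℂ) :
    Coc (rho w) Γ fun γ => rho w γ v - v := fun γ _ δ _ => by
  simp only [map_mul, Module.End.mul_apply, map_sub]
  abel

theorem pf_smul (w : ℕ) {f : ℍ → ℂ} (hf : MDiff f) (c : ℂ) (τ : ℍ) :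
    pf w (c • f) τ = c • pf w f τ := by
  simpa using pf_lin w {()} (g := fun _ => c • f) (fun _ => hf.const_smul c) hf (c := c)
    (by simp) τ

theorem pf_comb (w : ℕ) {ι : Type} [Fintype ι] {f : ι → ℍ → ℂ} (hf : ∀ i, f i ∈ Hol) (c : ι → ℂ)
    (τ : ℍ) : pf w (∑ i, c i • f i) τ = ∑ i, c i • pf w (f i) τ := by
  have := pf_lin w Finset.univ (g := fun i => c i • f i) (fun i => Hol.smul_mem (hf i) _)
    (f := ∑ i, c i • f i) (Hol.sum_mem fun i _ => Hol.smul_mem (hf i) _) (c := 1)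
    (one_smul _ _).symm τ
  rw [one_smul] at this
  rw [← this]
  exact Finset.sum_congr rfl fun i _ => pf_smul w (hf i) _ _

theorem cusp_sum {k : ℤ} {ι : Type} [Fintype ι] {g : ι → ℍ → ℂ} (c : ι → ℂ) (δ : SL(2, ℤ))
    (h : ∀ j, IsZeroAtImInfty (g j ∣[k] δ)) : IsZeroAtImInfty ((∑ j, c j • g j) ∣[k] δ) := by
  refine Finset.sum_induction _ (fun x : ℍ → ℂ => IsZeroAtImInfty (x ∣[k] δ)) (fun x y hx hy => ?_)
    ?_ fun j _ => ?_
  · rw [SlashAction.add_slash]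
    exact hx.add hy
  · rw [SlashAction.zero_slash]
    exact Filter.zero_zeroAtFilter _
  · rw [ModularForm.SL_smul_slash]
    exact (h j).smul _

/-- the conclusion: `z` is a sum of periods and of a coboundary -/
def Dec (Γ : Subgroup SL(2, ℤ)) (m : ℕ) (z : SL(2, ℤ) → Fin (2 * m + 1) → ℂ) : Prop :=
  ∃ (f g : ℍ → ℂ) (v : Fin (2 * m + 1) → ℂ), IsMF Γ ((2 * m + 2 : ℕ) : ℤ) f ∧
    IsMF Γ ((2 * m + 2 : ℕ) : ℤ) g ∧
    (∀ c : SL(2, ℤ), IsZeroAtImInfty (g ∣[((2 * m + 2 : ℕ) : ℤ)] c)) ∧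
    ∀ γ ∈ Γ, z γ = pf (2 * m) f (γ • I) + star (pf (2 * m) g (γ • I)) +
      ((sy (2 * m) (cx γ)).mulVec v - v)

theorem onto_pos {N : ℕ} {Γ : Subgroup SL(2, ℤ)} (h : Mid N Γ) {m : ℕ} (hm : 0 < m)
    {z : SL(2, ℤ) → Fin (2 * m + 1) → ℂ} (hz : Coc (rho (2 * m)) Γ z) : Dec Γ m z := by
  classical
  have := P027M.ES.Mid.finiteIndex grp h
  obtain ⟨a, b, f, g, hf, hg, hfi, hgi, hab⟩ := dimw h m
  rw [show (2 * m + 2 : ℤ) = ((2 * m + 2 : ℕ) : ℤ) by push_cast; rfl] at hf hg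
  let ψ : (Fin a ⊕ Fin b) ⊕ Fin (2 * m + 1) → SL(2, ℤ) → Fin (2 * m + 1) → ℂ :=
    Sum.elim (Sum.elim (fun i γ => pf (2 * m) (f i) (γ • I))
      fun j γ => star (pf (2 * m) (g j) (γ • I)))
      fun k γ => rho (2 * m) γ (Pi.single k 1) - Pi.single k 1
  have hψ : ∀ i, Coc (rho (2 * m)) Γ (ψ i) := by
    rintro ((i | j) | k)
    · exact coc_pf (hf i)
    · exact coc_star (coc_pf (hg j).1)
    · exact coc_bd Γ _
  have comb : ∀ (c : (Fin a ⊕ Fin b) ⊕ Fin (2 * m + 1) → ℂ) (γ : SL(2, ℤ)), ∑ i, c i • ψ i γ =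
      pf (2 * m) (∑ i, c (.inl (.inl i)) • f i) (γ • I) +
        star (pf (2 * m) (∑ j, star (c (.inl (.inr j))) • g j) (γ • I)) +
        (rho (2 * m) γ (fun k => c (.inr k)) - fun k => c (.inr k)) := by
    intro c γ
    have e : (fun k => c (.inr k)) =
        ∑ k, c (.inr k) • (Pi.single k 1 : Fin (2 * m + 1) → ℂ) := by
      funext k
      simp [Finset.sum_apply, Pi.single_apply]
    rw [pf_comb _ fun i => (hf i).hol, pf_comb _ fun j => (hg j).1.hol, e, map_sum, star_sum,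
      ← Finset.sum_sub_distrib, Fintype.sum_sum_type, Fintype.sum_sum_type]
    simp only [ψ, Sum.elim_inl, Sum.elim_inr, star_smul, star_star, map_smul, smul_sub]
  have mf : ∀ c : Fin a → ℂ, IsMF Γ ((2 * m + 2 : ℕ) : ℤ) (∑ i, c i • f i) := fun c =>
    P027M.ES.isMF_sum _ fun i _ => (hf i).smul _
  have mg : ∀ c : Fin b → ℂ, IsMF Γ ((2 * m + 2 : ℕ) : ℤ) (∑ i, c i • g i) := fun c =>
    P027M.ES.isMF_sum _ fun i _ => (hg i).1.smul _
  have hind : LinearIndependent ℂ fun i (γ : Γ) => ψ i γ := by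
    rw [Fintype.linearIndependent_iff]
    intro c hc
    have h0 : ∀ γ ∈ Γ, ∑ i, c i • ψ i γ = 0 := fun γ hγ => by
      have := congrFun hc ⟨γ, hγ⟩
      simpa only [Finset.sum_apply, Pi.smul_apply, Pi.zero_apply] using this
    obtain ⟨e1, e2, e5⟩ := inj2 Γ hm.ne' (mf _) (mg _)
      (fun δ => cusp_sum _ δ fun j => (hg j).2 δ) (-fun k => c (.inr k)) fun γ hγ => by
        have := h0 γ hγ
        rw [comb, rho_apply] at this
        rw [Matrix.mulVec_neg, eq_neg_of_add_eq_zero_left this]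
        abel
    have e3 := Fintype.linearIndependent_iff.1 hfi _ e1
    have e4 := fun j => star_eq_zero.1 (Fintype.linearIndependent_iff.1 hgi _ e2 j)
    rintro ((i | j) | k)
    · exact e3 i
    · exact e4 j
    · exact congrFun (neg_eq_zero.1 e5) k
  have hmem : (fun γ : Γ => z γ) ∈ Submodule.span ℂ (Set.range fun i (γ : Γ) => ψ i γ) := by
    by_contra hn
    have h1 := hind.option hn
    have h2 := cocd (rho (2 * m)) (rho_neg m) Γ h.hi (h.lo (P022.H231.L3.neg_one_mem _ _))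
      (ι := Option ((Fin a ⊕ Fin b) ⊕ Fin (2 * m + 1))) (fun o => Option.casesOn' o z ψ) (by
        rintro (_ | i)
        · exact hz
        · exact hψ i) (by
        have e : (fun (o : Option ((Fin a ⊕ Fin b) ⊕ Fin (2 * m + 1))) (γ : Γ) =>
            (Option.casesOn' o z ψ) γ) =
            fun o => Option.casesOn' o (fun γ : Γ => z γ) fun i (γ : Γ) => ψ i γ := by
          funext o
          cases o <;> rfl
        rw [e]
        exact h1)
    simp only [Fintype.card_option, Fintype.card_sum, Fintype.card_fin,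
      Module.finrank_fintype_fun_eq_card] at h2
    nlinarith
  obtain ⟨c, hc⟩ := (Submodule.mem_span_range_iff_exists_fun ℂ).1 hmem
  refine ⟨_, _, fun k => c (.inr k), mf fun i => c (.inl (.inl i)),
    mg fun j => star (c (.inl (.inr j))), fun δ => cusp_sum _ δ fun j => (hg j).2 δ,
    fun γ hγ => ?_⟩
  rw [← rho_apply, ← comb]
  have := congrFun hc ⟨γ, hγ⟩
  simpa only [Finset.sum_apply, Pi.smul_apply] using this.symm

theorem pf_prim {f F : ℍ → ℂ} (hf : f ∈ Hol) (h : P027M.ES.Prim f F) (τ : ℍ) (k : Fin (0 + 1)) :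
    pf 0 ((2 * π * Complex.I : ℂ) • f) τ k = F τ - F I := by
  have h1 := pf_dv 0 (g := (2 * π * Complex.I : ℂ) • f) (Hol.smul_mem hf _) k
  refine congrFun (h1.uniq (B := fun τ => F τ - F I) (fun σ => ?_) ?_) τ
  · have := (h σ).sub_const (F I)
    simp only [show (k : ℕ) = 0 by omega, pow_zero, one_mul]
    exact this
  · rw [pf_I 0 (Hol.smul_mem hf _), sub_self]
    rfl

theorem onto_zero {N : ℕ} {Γ : Subgroup SL(2, ℤ)} (h : Mid N Γ)
    {z : SL(2, ℤ) → Fin (2 * 0 + 1) → ℂ} (hz : Coc (rho (2 * 0)) Γ z) : Dec Γ 0 z := by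
  have e : ∀ (γ : SL(2, ℤ)) (v : Fin (0 + 1) → ℂ), rho 0 γ v 0 = v 0 := fun γ v => by
    simp [rho_apply, Matrix.mulVec, dotProduct, sy_apply, mon]
  obtain ⟨f, g, F, G, h1, h2, h3, h4, h5⟩ := P027M.ES.esc.1 N Γ h (fun γ => z γ 0)
    fun γ hγ δ hδ => by
      have := congrFun (hz γ hγ δ hδ) 0
      rw [Pi.add_apply] at this
      exact this.trans (congrArg _ (e γ _))
  refine ⟨_, _, 0, h1.smul (2 * π * Complex.I), h2.1.smul (2 * π * Complex.I), fun c => ?_,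
    fun γ hγ => funext fun k => ?_⟩
  · rw [ModularForm.SL_smul_slash]
    exact (h2.2 c).smul _
  · obtain rfl : k = 0 := Fin.ext (by omega)
    rw [h5 γ hγ I, Matrix.mulVec_zero, sub_self, add_zero, Pi.add_apply, Pi.star_apply]
    exact (congrArg₂ (· + star ·) (pf_prim h1.hol h3 _ 0) (pf_prim h2.1.hol h4 _ 0)).symm

/-- **onto** -/
theorem onto' {N : ℕ} {Γ : Subgroup SL(2, ℤ)} (h : Mid N Γ) (m : ℕ)
    {z : SL(2, ℤ) → Fin (2 * m + 1) → ℂ} (hz : Coc (rho (2 * m)) Γ z) : Dec Γ m z := by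
  rcases Nat.eq_zero_or_pos m with rfl | hm
  · exact onto_zero h hz
  · exact onto_pos h hm hz

/-- **onto**, the cocycle relation written out -/
theorem onto {N : ℕ} {Γ : Subgroup SL(2, ℤ)} (h : Mid N Γ) (m : ℕ)
    (z : SL(2, ℤ) → Fin (2 * m + 1) → ℂ)
    (hz : ∀ γ ∈ Γ, ∀ δ ∈ Γ, z (γ * δ) = z γ + (sy (2 * m) (cx γ)).mulVec (z δ)) :
    ∃ (f g : ℍ → ℂ) (v : Fin (2 * m + 1) → ℂ), IsMF Γ ((2 * m + 2 : ℕ) : ℤ) f ∧
      IsMF Γ ((2 * m + 2 : ℕ) : ℤ) g ∧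
      ∀ γ ∈ Γ, z γ = pf (2 * m) f (γ • I) + star (pf (2 * m) g (γ • I)) +
        ((sy (2 * m) (cx γ)).mulVec v - v) := by
  obtain ⟨f, g, v, h1, h2, -, h3⟩ := onto' h m (z := z) hz
  exact ⟨f, g, v, h1, h2, h3⟩

theorem mid0 {N : ℕ} (h0 : 0 < N) (h4 : 4 ∣ N) : Mid N (CongruenceSubgroup.Gamma0 N) := by
  refine ⟨⟨h0, h4⟩, fun γ hγ => ?_, fun γ hγ => ?_⟩
  · exact CongruenceSubgroup.Gamma0_mem.2 ((ZMod.intCast_zmod_eq_zero_iff_dvd _ _).2 hγ.1)
  · exact CongruenceSubgroup.Gamma0_mem.2 ((ZMod.intCast_zmod_eq_zero_iff_dvd _ _).2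
      ((Int.natCast_dvd_natCast.2 h4).trans
        ((ZMod.intCast_zmod_eq_zero_iff_dvd _ _).1 (CongruenceSubgroup.Gamma0_mem.1 hγ))))

end Vale.Agent.P004M.Es
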