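import Vale.Agent.P004M.Es.Hk
import Vale.Agent.P004M.Es.Onto

/-!
# P004M, row a5: a word which kills the modular forms kills the cohomology
-/

set_option autoImplicit false

noncomputable section

namespace Vale.Agent.P004M.Es

open Vale.Agent.P022 Vale.Agent.P022K.Sh Vale.Agent.P022K.QT Vale.Agent.P022K.QT.Cl
open Vale.Agent.P022K.UC.Hm

variable {N m : ℕ} [NeZero N] {P : FreeAlgebra ℤ (PA N)}

/-- **Eichler and Shimura** -/
theorem es5 (h4 : 4 ∣ N) (h : ∀ f, Tv f → wd N m P f = 0) (R : Type) [Field R] [Algebra ℚ R] :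
    wH N (rw R m) P = 0 :=
  es_of (onto (mid0 (NeZero.pos N) h4) m) h R

/-- the same for any proofs of the finiteness of the correspondences -/
theorem es5' (h4 : 4 ∣ N) (h : ∀ f, Tv f → wd N m P f = 0) (R : Type) [Field R] [Algebra ℚ R]
    (c : ∀ l : PA N, Cor (UU N 1) ((lc ⟨l.1, l.2.1⟩).To (UU N 1)) (UU N 1)) :
    FreeAlgebra.lift ℤ (fun l => TQ.hH (rw R m) (c l)) P = 0 := es5 h4 h R

/-- the same on cochains -/
theorem es5z (h4 : 4 ∣ N) (h : ∀ f, Tv f → wd N m P f = 0) (R : Type) [Field R] [Algebra ℚ R] :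
    ∀ z ∈ TQ.Z1 (rw R m) (UU N 1), wF N (Vw R Unit m) P z ∈ TQ.B1 (rw R m) (UU N 1) :=
  (wH_eq _ P).1 (es5 h4 h R)

end Vale.Agent.P004M.Es
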