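import Vale.Agent.P027M.M.DimsAll

/-! # P004, block MOD: `dim M_k(Γ) + dim S_k(Γ) ≥ (k - 1) [Γ₀(4) : Γ]` for even `k ≥ 2` -/

set_option autoImplicit false

open UpperHalfPlane Matrix Filter Topology
open scoped MatrixGroups Manifold IntermediateField ModularForm

noncomputable section

namespace Vale.Agent.P004M.Es

open Vale.Agent.P022 Vale.Agent.P022.H218.L3 Vale.Agent.P022.H231.L3 Vale.Agent.P022.H236.L3
  Vale.Agent.P022.H542.L3 Vale.Agent.P019P P025H816 P025H492 Vale.Agent.P022.H587.L3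
  Vale.Agent.P027M.M Vale.Agent.P027M.M.Dim

section alg
variable {k K : Type*} [Field k] [Field K] [Algebra k K] [CFF k K]

theorem diff_ord' [CharZero k] {t : K} (ht : ∀ a : k, t ≠ algebraMap k K a)
    (H : ∀ (P : Plk k K) (a : k), a ≠ 2 → a ≠ -2 → 0 < ord P (t - algebraMap k K a) →
      ord P (t - algebraMap k K a) = 1) (D : Plk k K →₀ ℤ) {y : K} (hy0 : y ≠ 0)
    (hy : y ∈ LL k (wdv k t + D)) (P : Plk k K) :
    -(pol k t P + D P) ≤ ord P (y * ((t - algebraMap k K 2) * (t - algebraMap k K (-2)))) ∧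
    (Cs t P → 1 - (pol k t P + D P) ≤
      ord P (y * ((t - algebraMap k K 2) * (t - algebraMap k K (-2))))) := by
  have n1 := sub_ne_zero.2 (ht 2)
  have n2 := sub_ne_zero.2 (ht (-2))
  have h1 := ((mem_LL.1 hy).resolve_left hy0) P
  rw [Finsupp.add_apply, wdv_apply ht, wd] at h1
  rw [P019P.ord_mul P hy0 (mul_ne_zero n1 n2), P019P.ord_mul P n1 n2, pol_apply]
  split_ifs at h1 with h
  · have h2 := ord_sub_nonneg h 2
    have h3 := ord_sub_nonneg h (-2)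
    have h4 := ord_sub_vl_pos ht h
    by_cases e1 : vl P t = 2
    · rw [e1] at h1 h4
      exact ⟨by omega, fun _ => by omega⟩
    by_cases e2 : vl P t = -2
    · rw [e2] at h1 h4
      exact ⟨by omega, fun _ => by omega⟩
    rw [H P _ e1 e2 h4] at h1
    refine ⟨by omega, ?_⟩
    rintro (h5 | h5 | h5)
    · exact absurd (vl_eq_of_pos h5) e1
    · exact absurd (vl_eq_of_pos h5) e2
    · omega
  · rw [ord_sub_pole (not_le.1 h), ord_sub_pole (not_le.1 h)]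
    exact ⟨by omega, fun _ => by omega⟩

theorem count' [CharZero k] {t : K} (ht : ∀ a : k, t ≠ algebraMap k K a) (m : ℕ) :
    (2 * m + 1) * Module.finrank k⟮t⟯ K ≤
      Module.finrank k (LL k ((m + 1) • pol k t)) +
        Module.finrank k (LL k (wdv k t + m • pol k t)) := by
  have h1 := RR ((m + 1) • pol k t)
  have h2 := RR (wdv k t + m • pol k t)
  rw [map_nsmul, dg_pol ht, nsmul_eq_mul] at h1
  rw [map_add, map_nsmul, dg_pol ht, nsmul_eq_mul, P297Y.Crr.dg_wdv ht] at h2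
  zify
  push_cast at h1 h2
  have h3 := Int.natCast_nonneg (Module.finrank k (LL k (can k K - (m + 1) • pol k t)))
  have h4 := Int.natCast_nonneg (Module.finrank k (LL k (can k K - (wdv k t + m • pol k t))))
  linarith

end alg

variable (X : Mdl) {N : ℕ} {Γ : Subgroup SL(2, ℤ)}

/-- functions without poles at the affine places are holomorphic -/
theorem exists_hol' (h : Γ ≤ G0) [CFF Qb (L Γ)] {y : L Γ} (hy0 : y ≠ 0)
    (hy : ∀ P : Plk Qb (L Γ), 0 ≤ ord P (X.tL h) → 0 ≤ ord P y) :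
    ∃ (Y : ℍ → ℂ) (hY : Y ∈ Hol), cv (y : FF) = inc Y hY := by
  obtain ⟨P, hP, e, hd, -, -⟩ := X.hol
  have h0 : cv (y : FF) ≠ 0 := fun h1 => hy0 (Subtype.ext (cv_inj (h1.trans (map_zero cv).symm)))
  obtain ⟨g, k, hg, hk, g0, k0, e1⟩ := exists_frac _ h0
  obtain ⟨Y, hY, e2⟩ := exists_div hg hk g0 k0 fun τ => by
    obtain ⟨θ, h1, h2⟩ := H406.L3.exists_theta hP τ (hd τ)
    let φ : L Γ →+* LS := (θ : Mer →+* LS).comp ((cv : FF →+* Mer).comp (L Γ).val)
    have hc : ∀ c : Qb, φ (algebraMap Qb (L Γ) c) = HahnSeries.C (io c) := by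
      intro c
      show θ (cv (algebraMap Qb FF c)) = _
      rw [cv_alg, θ.commutes, algMap_ls]
    have h3 : 0 ≤ (φ y).order := by
      rcases triv_or_place (k := Qb) φ (fun c => by rw [hc, HahnSeries.order_C]) with
        h3 | ⟨Q, e', he, hQ⟩
      · exact (h3 y).ge
      have h4 : 0 ≤ (φ (X.tL h)).order := by
        show 0 ≤ (θ (cv X.t)).order
        rw [e, h1]
        by_cases hz : (HahnSeries.C (P τ) + HahnSeries.single 1 1 : LS) = 0
        · rw [hz, HahnSeries.order_zero]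
        · refine le_trans ?_ (HahnSeries.min_order_le_order_add hz)
          rw [HahnSeries.order_C, HahnSeries.order_single one_ne_zero]
          norm_num
      rw [hQ] at h4 ⊢
      exact mul_nonneg he.le (hy Q (nonneg_of_mul_nonneg_right h4 he))
    have h4 : φ y * θ (inc k hk) = θ (inc g hg) := by
      show θ (cv (y : FF)) * _ = _
      rw [← map_mul, e1, div_mul_cancel₀ _ (inc_ne hk k0)]
    have h5 := congrArg HahnSeries.order h4
    rw [HahnSeries.order_mul ((_root_.map_ne_zero φ).2 hy0)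
      ((_root_.map_ne_zero θ).2 (inc_ne hk k0)), h2 k hk k0, h2 g hg g0] at h5
    omega
  refine ⟨Y, hY, ?_⟩
  rw [e1, div_eq_iff (inc_ne hk k0), ← inc_mul]
  exact inc_congr _ e2.symm

theorem pow_slash (f : ℍ → ℂ) (k : ℤ) (γ : SL(2, ℤ)) (m : ℕ) :
    (f ^ m) ∣[(m * k : ℤ)] γ = (f ∣[k] γ) ^ m := by
  induction m with
  | zero =>
    rw [pow_zero, pow_zero, Nat.cast_zero, zero_mul]
    exact ModularForm.is_invariant_const γ 1
  | succ n ih =>
    rw [pow_succ, pow_succ, ← ih, ← ModularForm.mul_slash_SL2]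
    congr 1
    push_cast
    ring

/-- the form attached to a function -/
theorem exists_form' (hE : EXP) (hG : GRP) (h : Mid N Γ) [CFF Qb (L Γ)] (m : ℕ) {y : L Γ}
    (hy0 : y ≠ 0) (hy : ∀ P : Plk Qb (L Γ), -(m * pol Qb (X.tL h.hi) P) ≤ ord P y) :
    ∃ (Y : ℍ → ℂ) (hY : Y ∈ Hol), cv (y : FF) = inc Y hY ∧ IsMF Γ (m * 2) (Y * Af ^ m) ∧
      ((∀ P : Plk Qb (L Γ), Cs (X.tL h.hi) P → 1 - m * pol Qb (X.tL h.hi) P ≤ ord P y) →
        ∀ c : SL(2, ℤ), IsZeroAtImInfty ((Y * Af ^ m) ∣[(m * 2 : ℤ)] c)) := by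
  have hN := h.lv.pos
  obtain ⟨Y, hY, e⟩ := exists_hol' X h.hi hy0 fun P hP => by
    have := hy P
    rwa [pol_apply, max_eq_left (by omega), mul_zero, neg_zero] at this
  have hA : Af ^ m ∈ Hol := Hol.pow_mem Pre.Af_hol m
  have hA0 : Af ^ m ≠ 0 := fun h0 =>
    pow_ne_zero m (a := (⟨Af, Pre.Af_hol⟩ : Hol)) (fun h1 => Pre.Af_ne' (congrArg Subtype.val h1))
      (Subtype.ext h0)
  have hf : Y * Af ^ m ∈ Hol := Hol.mul_mem hY hA
  have e1 : inc (Y * Af ^ m) hf = cv (y : FF) * inc (Af ^ m) hA := by rw [e, inc_mul]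
  have e2 : ∀ γ : SL(2, ℤ), inc ((Y * Af ^ m) ∣[(m * 2 : ℤ)] γ) (slash_mem hf _ γ) =
      act γ⁻¹ (cv (y : FF)) * inc ((Af ^ m) ∣[(m * 2 : ℤ)] γ) (slash_mem hA _ γ) := by
    intro γ
    have h1 := act_div γ⁻¹ (m * 2) hf hA hA0
    rw [e1, mul_div_cancel_right₀ _ (inc_ne _ hA0)] at h1
    simp only [inv_inv] at h1
    rw [h1, div_mul_cancel₀ _ (inc_ne _ (slash_ne_zero hA0 γ))]
  have key : ∀ γ : SL(2, ℤ), ∃ s : LS, ExL N s ((Y * Af ^ m) ∣[(m * 2 : ℤ)] γ) ∧ 0 ≤ s.order ∧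
      ((∀ P : Plk Qb (L Γ), Cs (X.tL h.hi) P → 1 - m * pol Qb (X.tL h.hi) P ≤ ord P y) →
        0 < s.order) := by
    intro γ
    obtain ⟨φ, hφ⟩ := exists_phi X hE hG h γ
    obtain ⟨Q, r, hr, h1, h2, h3⟩ := cusp_ord X h fun x => (hφ x).1
    obtain ⟨_, hB, -⟩ := goodA h.lv γ
    have h4 : ExL N (Xs N (p4 N ᵥ* (γ : M2)) - Xs N (p1 N ᵥ* (γ : M2))) (Af ∣[(2 : ℤ)] γ) := by
      rw [Pre.Af_eq h.lv, Wf_slash]
      exact (sa3 N hN _ _ ((Pre.nz4 h.lv).vecMul γ) ((Pre.nz1 h.lv).vecMul γ)).2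
    have h4' := h4.pow m
    rw [← pow_slash] at h4'
    have h5 := (hφ y).1.mul (h4'.exM_inc (slash_mem hA _ γ))
    rw [← e2] at h5
    have h7 := mul_le_mul_of_nonneg_left h3 (Int.natCast_nonneg m)
    refine ⟨_, exL_of_exM hN.ne' _ h5, ?_, fun h6 => ?_⟩
    · rw [HahnSeries.order_mul ((_root_.map_ne_zero φ).2 hy0) (pow_ne_zero _ hB.ne), h1,
        HahnSeries.order_pow, nsmul_eq_mul]
      have := mul_le_mul_of_nonneg_left (hy Q) hr.le
      linarith
    · rw [HahnSeries.order_mul ((_root_.map_ne_zero φ).2 hy0) (pow_ne_zero _ hB.ne), h1,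
        HahnSeries.order_pow, nsmul_eq_mul]
      have := mul_le_mul_of_nonneg_left (h6 Q h2) hr.le
      linarith
  refine ⟨Y, hY, e, ⟨hf, fun γ hγ => ?_, fun γ => ?_⟩, fun h6 γ => ?_⟩
  · refine inc_injective (slash_mem hf _ γ) hf ?_
    rw [e2, e1, y.2 _ (Γ.inv_mem hγ)]
    congr 1
    exact inc_congr _ (((rb1 sa3).2.1.pow m).slash γ (h.hi hγ))
  · obtain ⟨s, h1, h2, -⟩ := key γ
    exact (tendsto_of_exL hN.ne' h1 h2).isBigO_one ℝ
  · obtain ⟨s, h1, h2, h3⟩ := key γ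
    have := tendsto_of_exL hN.ne' h1 h2
    rwa [HahnSeries.coeff_eq_zero_of_lt_order (h3 h6)] at this

theorem indep_mul {ι : Type} [Fintype ι] {f : ι → ℍ → ℂ} (hf : ∀ i, f i ∈ Hol)
    (h : LinearIndependent ℂ f) {a : ℍ → ℂ} (ha : a ∈ Hol) (a0 : a ≠ 0) :
    LinearIndependent ℂ fun i => f i * a := by
  rw [Fintype.linearIndependent_iff] at h ⊢
  intro c hc
  refine h c ?_
  have h1 : (∑ i, c i • f i) * a = 0 := by
    rw [Finset.sum_mul, ← hc]
    exact Finset.sum_congr rfl fun i _ => smul_mul_assoc _ _ _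
  exact ((UpperHalfPlane.mul_eq_zero_iff
    (Hol.sum_mem fun i _ => Hol.smul_mem (hf i) (c i)) ha).1 h1).resolve_right a0

include X in
theorem indep' (hE : EXP) (hG : GRP) (h : Mid N Γ) {ι : Type} [Fintype ι] {y : ι → L Γ}
    (hy : LinearIndependent Qb y) {Y : ι → ℍ → ℂ} (hY : ∀ i, Y i ∈ Hol)
    (e : ∀ i, cv (y i : FF) = inc (Y i) (hY i)) (m : ℕ) :
    LinearIndependent ℂ fun i => Y i * Af ^ (m + 1) := by
  have h1 := indep X hE hG h hy (f := fun i => Y i * Af)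
    (fun i => Hol.mul_mem (hY i) Pre.Af_hol) fun i => by rw [e, inc_mul]
  have hA0 : Af ^ m ≠ 0 := fun h0 =>
    pow_ne_zero m (a := (⟨Af, Pre.Af_hol⟩ : Hol)) (fun h1 => Pre.Af_ne' (congrArg Subtype.val h1))
      (Subtype.ext h0)
  have h2 := indep_mul (fun i => Hol.mul_mem (hY i) Pre.Af_hol) h1 (Hol.pow_mem Pre.Af_hol m) hA0
  simpa only [mul_assoc, ← pow_succ'] using h2

/-- **the lower bound for the dimensions in the weight `2 m + 2`** -/
theorem dimw {N : ℕ} {Γ : Subgroup SL(2, ℤ)} (h : Mid N Γ) (m : ℕ) :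
    ∃ (a b : ℕ) (f : Fin a → ℍ → ℂ) (g : Fin b → ℍ → ℂ), (∀ i, IsMF Γ (2 * m + 2) (f i)) ∧
      (∀ j, IsMF Γ (2 * m + 2) (g j) ∧
        ∀ c : SL(2, ℤ), IsZeroAtImInfty (g j ∣[(2 * m + 2 : ℤ)] c)) ∧
      LinearIndependent ℂ f ∧ LinearIndependent ℂ g ∧ (2 * m + 1) * Γ.relIndex G0 ≤ a + b := by
  obtain ⟨X⟩ := mdl
  have hA := artin X
  have hC := cffs X hA
  have hF := faith X ser grp hA
  have hP := pla X hA hC grp
  obtain ⟨hfi, -, -, hm0, -⟩ := grp N h.lv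
  have hfi' : Γ.FiniteIndex := Subgroup.finiteIndex_of_le h.lo
  have : CFF Qb (L Γ) := hC _ h.hi hfi'
  have : CharZero Qb := inferInstance
  obtain ⟨Q, hQ⟩ := Pla.exists_simple X h.hi (a := 0) (by norm_num) (by norm_num)
  rw [map_zero, sub_zero] at hQ
  have ht := nc_of_ord (P := Q) (z := X.tL h.hi) (by omega)
  have h1 := count' ht m
  rw [finrank_tL X hC hA h.hi hfi', hF.2.2 N G0 Γ h.hi hm0 h] at h1
  let b1 := Module.finBasis Qb (LL Qb ((m + 1) • pol Qb (X.tL h.hi)))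
  let b2 := Module.finBasis Qb (LL Qb (wdv Qb (X.tL h.hi) + m • pol Qb (X.tL h.hi)))
  have i1 : LinearIndependent Qb fun i => (b1 i : L Γ) :=
    b1.linearIndependent.map' (Submodule.subtype _) (Submodule.ker_subtype _)
  have i2 : LinearIndependent Qb fun i => (b2 i : L Γ) :=
    b2.linearIndependent.map' (Submodule.subtype _) (Submodule.ker_subtype _)
  have n : (X.tL h.hi - algebraMap Qb (L Γ) 2) * (X.tL h.hi - algebraMap Qb (L Γ) (-2)) ≠ 0 :=
    mul_ne_zero (sub_ne_zero.2 (ht _)) (sub_ne_zero.2 (ht _))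
  have i3 : LinearIndependent Qb fun i => (b2 i : L Γ) *
      ((X.tL h.hi - algebraMap Qb (L Γ) 2) * (X.tL h.hi - algebraMap Qb (L Γ) (-2))) :=
    i2.map' (LinearMap.mulRight Qb _) (LinearMap.ker_eq_bot.2 (mul_left_injective₀ n))
  have ew : (((m + 1 : ℕ) : ℤ) * 2) = 2 * m + 2 := by push_cast; ring
  have ed : ∀ P : Plk Qb (L Γ), pol Qb (X.tL h.hi) P + (m • pol Qb (X.tL h.hi)) P =
      ((m + 1 : ℕ) : ℤ) * pol Qb (X.tL h.hi) P := fun P => by
    rw [Finsupp.nsmul_apply, nsmul_eq_mul]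
    push_cast
    ring
  choose f hf e1 hf' _ using fun i => exists_form' X exp grp h (m + 1) (i1.ne_zero i) fun P => by
    have := (mem_LL.1 (b1 i).2).resolve_left (i1.ne_zero i) P
    rwa [Finsupp.nsmul_apply, nsmul_eq_mul] at this
  choose g hg e2 hg' hz using fun i => exists_form' X exp grp h (m + 1) (i3.ne_zero i)
    fun P => ed P ▸ (diff_ord' ht (hP N Γ h) _ (i2.ne_zero i) (b2 i).2 P).1
  rw [ew] at hf' hg' hz
  exact ⟨_, _, _, _, hf',
    fun j => ⟨hg' j, hz j fun P =>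
      ed P ▸ (diff_ord' ht (hP N Γ h) _ (i2.ne_zero j) (b2 j).2 P).2⟩,
    indep' X exp grp h i1 hf e1 m, indep' X exp grp h i3 hg e2 m, h1⟩

end Vale.Agent.P004M.Es
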