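import Vale.Agent.P022K.QT.Clb
import Vale.Agent.P022K.UC.Fun

/-!
# P004M, row a5: Hecke words on cochains of the modular tower, the lemma of Shapiro, descent
-/

set_option autoImplicit false

open UpperHalfPlane CongruenceSubgroup
open scoped MatrixGroups ModularForm Manifold

noncomputable section

namespace Vale.Agent.P004M.Es

open Vale.Agent.P022 Vale.Agent.P022K.Sh Vale.Agent.P022K.QT Vale.Agent.P022K.QT.Cl
open Vale.Agent.P022.H783 Vale.Agent.P022K.UC.Hm Vale.Agent.P022.H218.L3 Matrix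

theorem lift_rel {ι Λ Λ' A A' : Type} [CommRing Λ] [CommRing Λ'] [AddCommGroup A] [AddCommGroup A']
    [Module Λ A] [Module Λ' A'] (T : ι → Module.End Λ A) (T' : ι → Module.End Λ' A')
    (S : AddSubgroup (A × A')) (h : ∀ l a a', (a, a') ∈ S → (T l a, T' l a') ∈ S)
    (P : FreeAlgebra ℤ ι) : ∀ a a', (a, a') ∈ S →
      (FreeAlgebra.lift ℤ T P a, FreeAlgebra.lift ℤ T' P a') ∈ S := by
  induction P using FreeAlgebra.induction with
  | grade0 r => exact fun a a' e => by simpa using S.zsmul_mem e r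
  | grade1 l => simpa using h l
  | mul p q hp hq => exact fun a a' e => by simpa using hp _ _ (hq _ _ e)
  | add p q hp hq => exact fun a a' e => by simpa using S.add_mem (hp _ _ e) (hq _ _ e)

variable {N m : ℕ} [NeZero N]

/-- the prime -/
abbrev pr (l : PA N) : Pr := ⟨l.1, l.2.1⟩

omit [NeZero N] in
theorem pr_nd (l : PA N) : ¬ (pr l : ℕ) ∣ N := fun h => l.2.2 (h.mul_left 2)

theorem cT (l : PA N) : Cor (UU N 1) ((lc (pr l)).To (UU N 1)) (UU N 1) :=
  Tw.Lc.L0.cor _ ⟨UU_mem one_pos, at_UU (pr_nd l) l.2.1.not_dvd_one⟩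

section

variable {Λ B B' : Type} [CommRing Λ] [AddCommGroup B] [Module Λ B] [AddCommGroup B']

/-- the Hecke operator on cochains -/
def hF (B : Type) [AddCommGroup B] (l : PA N) : Module.End ℤ (G0 → G → B) :=
  AddMonoidHom.toIntLinearMap
    { toFun := fun z γ => hk ((lc (pr l)).To (UU N 1)) (UU N 1) (z γ)
      map_zero' := by funext γ x; simp [hk_eq (cT l)]
      map_add' := fun z w => by funext γ x; simp [hk_eq (cT l), Finset.sum_add_distrib] }

/-- words on cochains -/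
def wF (N : ℕ) [NeZero N] (B : Type) [AddCommGroup B] :
    FreeAlgebra ℤ (PA N) →ₐ[ℤ] Module.End ℤ (G0 → G → B) := FreeAlgebra.lift ℤ (hF B)

/-- words on cohomology -/
def wH (N : ℕ) [NeZero N] (ρ : Representation Λ G0 B) :
    FreeAlgebra ℤ (PA N) →ₐ[ℤ] Module.End Λ (TQ.H1 ρ (UU N 1)) :=
  FreeAlgebra.lift ℤ fun l => TQ.hH ρ (cT l)

theorem wF_mk (ρ : Representation Λ G0 B) (P : FreeAlgebra ℤ (PA N)) (z : TQ.Z1 ρ (UU N 1)) :
    ∃ z' : TQ.Z1 ρ (UU N 1), z'.1 = wF N B P z.1 ∧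
      Submodule.Quotient.mk z' = wH N ρ P (Submodule.Quotient.mk z) := by
  obtain ⟨z', h⟩ := lift_rel (hF B) (fun l => TQ.hH ρ (cT l)) (AddMonoidHom.range
    ((TQ.Z1 ρ (UU N 1)).subtype.toAddMonoidHom.prod (Submodule.mkQ _).toAddMonoidHom))
    (fun l a a' ⟨z, e⟩ => ⟨TQ.hZ ρ (cT l) z, by cases e; rfl⟩) P _ _ ⟨z, rfl⟩
  exact ⟨z', congrArg Prod.fst h, congrArg Prod.snd h⟩

theorem wH_eq (ρ : Representation Λ G0 B) (P : FreeAlgebra ℤ (PA N)) : wH N ρ P = 0 ↔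
    ∀ z ∈ TQ.Z1 ρ (UU N 1), wF N B P z ∈ TQ.B1 ρ (UU N 1) := by
  refine ⟨fun h z hz => ?_, fun h => LinearMap.ext fun a => ?_⟩
  · obtain ⟨z', e, e'⟩ := wF_mk ρ P ⟨z, hz⟩
    rw [h] at e'
    exact e ▸ show z'.1 ∈ _ from (Submodule.Quotient.mk_eq_zero (x := z') _).1 e'
  · obtain ⟨z, rfl⟩ := Submodule.Quotient.mk_surjective _ a
    obtain ⟨z', e, e'⟩ := wF_mk ρ P z
    exact e'.symm.trans ((Submodule.Quotient.mk_eq_zero _).2 (show z'.1 ∈ _ from e ▸ h _ z.2))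

theorem wF_B1 (ρ : Representation Λ G0 B) (P : FreeAlgebra ℤ (PA N)) {z : G0 → G → B}
    (hz : z ∈ TQ.Z1 ρ (UU N 1)) (h : z ∈ TQ.B1 ρ (UU N 1)) : wF N B P z ∈ TQ.B1 ρ (UU N 1) := by
  obtain ⟨z', e, e'⟩ := wF_mk ρ P ⟨z, hz⟩
  rw [(Submodule.Quotient.mk_eq_zero _).2 (show (⟨z, hz⟩ : TQ.Z1 ρ _) ∈ _ from h), map_zero] at e'
  exact e ▸ show z'.1 ∈ _ from (Submodule.Quotient.mk_eq_zero (x := z') _).1 e'

theorem wF_map (L : B →+ B') (P : FreeAlgebra ℤ (PA N)) (z : G0 → G → B) :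
    wF N B' P (fun γ x => L (z γ x)) = fun γ x => L (wF N B P z γ x) := by
  obtain ⟨z', h⟩ := lift_rel (hF B) (hF B') (AddMonoidHom.range
    ((AddMonoidHom.id _).prod ((L.compLeft G).compLeft G0)))
    (fun l a a' ⟨z, e⟩ => ⟨hF B l z, by
      cases e
      refine Prod.ext rfl (funext fun γ => funext fun x => ?_)
      exact (congrArg L (hk_eq (cT l) _ x)).trans ((map_sum L _ _).trans
        (hk_eq (cT l) (fun y => L (z γ y)) x).symm)⟩)
    P _ _ ⟨z, rfl⟩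
  exact (congrArg Prod.snd h).symm.trans (congrArg ((L.compLeft G).compLeft G0)
    (congrArg Prod.fst h))

theorem iZ_UU {g : SL(2, ℤ)} (hg : g ∈ Gamma0 N) : TQ.j (iZ g) ∈ UU N 1 := by
  obtain ⟨c, hc⟩ := (ZMod.intCast_zmod_eq_zero_iff_dvd _ _).1 (Gamma0_mem.1 hg)
  have hd := g.det_coe
  rw [Matrix.det_fin_two] at hd
  let g' : SL(2, ℤ) := ⟨!![g 0 0, g 0 1 * N; c, g 1 1], by
    rw [Matrix.det_fin_two_of]; linear_combination hd + g 0 1 * hc⟩
  refine mem_UU.2 ⟨KN_le 1 (j_K1.2 ⟨g, rfl⟩), ?_⟩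
  rw [← map_inv, ← map_mul, ← map_mul, mul_assoc, show iZ g * dN N = dN N * iZ g' from ?_,
    inv_mul_cancel_left]
  · exact KN_le 1 (j_K1.2 ⟨g', rfl⟩)
  · ext i k
    fin_cases i <;> fin_cases k <;>
      simp [dN, tq_val, Matrix.mul_apply, Fin.sum_univ_two, iZ_apply, hc] <;>
      simp [g', mul_comm]

/-- **Shapiro** -/
theorem shap {ρ : Representation Λ G0 B} (h0 : ∀ ζ ∈ TQ.Z0, ρ ζ = 1) {z : G0 → G → B}
    (hz : z ∈ TQ.Z1 ρ (UU N 1)) (v : B) (h : ∀ g ∈ Gamma0 N, z (iZ g) 1 = ρ (iZ g) v - v) :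
    z ∈ TQ.B1 ρ (UU N 1) := by
  have key : ∀ x γ, (TQ.j γ)⁻¹ * x ∈ UU N 1 →
      ρ (kp N x) v - z (kp N x) x = ρ γ v - z γ x := fun x γ hγ => by
    obtain ⟨g, hg, ζ, hζ, e⟩ := stab_UU (N := N) (γ := γ⁻¹ * kp N x) (by
      simpa [mul_assoc] using mul_mem hγ (inv_mem (kp_mem x)))
    have e1 := hz.1 (iZ g) 1 _ hγ
    rw [one_mul] at e1
    rw [inv_mul_eq_iff_eq_mul.1 e, hz.2.1, hz.2.1, hz.2.2 ζ hζ, map_mul, map_mul, h0 ζ hζ]
    simp [Tw.lt, e1, h g hg]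
    abel
  refine ⟨fun x => ρ (kp N x) v - z (kp N x) x, fun x u hu => ?_, fun γ => funext fun x => ?_⟩
  · beta_reduce
    rw [key (x * u) (kp N x) (by simpa [mul_assoc] using mul_mem (kp_mem x) hu), hz.1 _ x u hu]
  · rw [Pi.sub_apply, key x (γ * kp N ((TQ.j γ)⁻¹ * x)) (by
      simpa [mul_assoc] using kp_mem (N := N) ((TQ.j γ)⁻¹ * x)), hz.2.1]
    simp [Tw.lt]

end

section

variable {R R' : Type} [CommRing R] [Algebra ℚ R] [CommRing R'] [Algebra ℚ R'] {U : Subgroup G}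

theorem rw_Z0 (ζ : G0) (h : ζ ∈ TQ.Z0) : rw R m ζ = 1 := by
  obtain ⟨c, hc⟩ := scalar_of_mem (mem_Z0.1 h)
  have e : syd m ζ.1 = 1 := by
    ext j k
    have e1 : mon (2 * m) ζ.1.val j =
        Polynomial.C ((c : ℚ) ^ (2 * m)) * Polynomial.X ^ (j : ℕ) := by
      simp [mon, hc, mul_pow]
      rw [mul_right_comm, ← pow_add, Nat.add_sub_cancel' (Nat.lt_succ_iff.1 j.2)]
    change _ * sy (2 * m) ζ.1.val j k = _
    rw [sy_apply, e1, Polynomial.coeff_C_mul, Polynomial.coeff_X_pow, hc, Matrix.one_apply]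
    simp [Fin.ext_iff, eq_comm, pow_mul]
  refine LinearMap.ext fun v => funext fun k => ?_
  rw [rw_apply, e]
  simp [Matrix.one_apply, apply_ite (algebraMap ℚ R)]

theorem rw_map (l : R →+ R') (γ : G0) (v : Vw R Unit m) :
    rw R' m γ (l.compLeft _ v) = l.compLeft _ (rw R m γ v) := by
  funext k
  simp only [AddMonoidHom.compLeft_apply, Function.comp_apply, rw_apply, map_sum,
    ← Algebra.smul_def, map_rat_smul]

theorem Z1_map (l : R →+ R') {z : G0 → G → Vw R Unit m} (hz : z ∈ TQ.Z1 (rw R m) U) :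
    (fun γ x => l.compLeft _ (z γ x)) ∈ TQ.Z1 (rw R' m) U :=
  ⟨fun γ x u hu => congrArg _ (hz.1 γ x u hu), fun γ δ => funext fun x => by
    simp only [hz.2.1, Pi.add_apply, Tw.lt, map_add, rw_map], fun γ hγ => funext fun x => by
    simp only [hz.2.2 γ hγ, Pi.zero_apply, map_zero]⟩

theorem B1_map (l : R →+ R') {z : G0 → G → Vw R Unit m} (hz : z ∈ TQ.B1 (rw R m) U) :
    (fun γ x => l.compLeft _ (z γ x)) ∈ TQ.B1 (rw R' m) U := by
  obtain ⟨F, h1, h2⟩ := hz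
  exact ⟨fun x => l.compLeft _ (F x), fun x u hu => congrArg _ (h1 x u hu), fun γ => funext fun x => by
    simp only [h2, Pi.sub_apply, Tw.lt, map_sub, rw_map]⟩

end

/-- **descent** from `ℂ` to any field of characteristic zero -/
theorem wH_desc {P : FreeAlgebra ℤ (PA N)} (h : wH N (rw ℂ m) P = 0) (R : Type) [Field R]
    [Algebra ℚ R] : wH N (rw R m) P = 0 := by
  refine (wH_eq _ P).2 fun z hz => ?_
  obtain ⟨y, e, -⟩ := wF_mk _ P ⟨z, hz⟩
  obtain ⟨π, hπ⟩ := (Algebra.linearMap ℚ ℂ).exists_leftInverse_of_injective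
    (LinearMap.ker_eq_bot.2 (algebraMap ℚ ℂ).injective)
  obtain ⟨v, hv⟩ := desc (algebraMap ℚ R) (ι := Gamma0 N × Fin (2 * m + 1))
    (fun i j => (syd m (iZ i.1).1 - 1) i.2 j) (fun i => y.1 (iZ i.1) 1 fun _ => i.2) fun l _ => by
      have h1 := (wH_eq _ P).1 h _ (Z1_map ((algebraMap ℚ ℂ).toAddMonoidHom.comp l) hz)
      rw [wF_map] at h1
      obtain ⟨F, h2, h3⟩ := B1_map π.toAddMonoidHom h1
      refine ⟨fun j => F 1 fun _ => j, fun i => ?_⟩
      have h4 := congrFun (congrFun (h3 (iZ i.1)) 1) fun _ => i.2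
      have e' : F ((TQ.j (iZ i.1))⁻¹ * 1) = F 1 := by
        simpa using h2 1 _ (inv_mem (iZ_UU i.1.2))
      rw [Pi.sub_apply, Pi.sub_apply, Tw.lt, e', rw_apply] at h4
      refine ((DFunLike.congr_fun hπ _).symm.trans (e ▸ h4)).trans ?_
      simp [sub_mul, Matrix.one_apply]
  refine e ▸ shap rw_Z0 y.2 (fun k => v (k ())) fun g hg => funext fun k => ?_
  refine (hv (⟨g, hg⟩, k ())).trans ?_
  simp [-eq_ratCast, rw_apply, sub_mul, Matrix.one_apply, apply_ite (algebraMap ℚ R)]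

/-! ## the cocycles of modular forms -/

variable {f g : ℍ → ℂ}

theorem om_hk (hf : I0 m N f) {l : Pr} (hl : ¬ (l : ℕ) ∣ N)
    [Fintype (IsLocalRing.ResidueField ℤ_[l])] (x : G) :
    ∑ i, om m N f (x * io l ((lc l).tr i)) = om m N
      (∑ j : Fin l, Cl.sl m f (tq 1 j l (by simpa using l.2.pos)) +
        Cl.sl m f (tq l 0 1 (by simpa using l.2.pos))) x := by
  have a := at_UU (M := 1) hl l.2.not_dvd_one
  have r := a.rep_To (UU_mem one_pos)
  have h1 : ∑ i, om m N f (io l ((lc l).tr i)) =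
      ∑ j : Fin l, Cl.sl m f (tq 1 j l (by simpa using l.2.pos)) +
        Cl.sl m f (tq l 0 1 (by simpa using l.2.pos)) := by
    rw [Fintype.sum_option, add_comm, ← (res_bij l).sum_comp]
    congr 1
    · refine Finset.sum_congr rfl fun j _ => ?_
      obtain ⟨s, hs⟩ := Ideal.mem_span_singleton'.1 ((PadicInt.maximalIdeal_eq_span_p (p := l)).le
        (Ideal.Quotient.eq.1 (Quotient.out_eq (IsLocalRing.residue ℤ_[l] (-((j : ℕ) : ℤ_[l]))))))
      refine hf.om_eq (j_io hl _ (one_mul _) (nO s) ?_)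
      have := congrArg (algebraMap ℤ_[l] ℚ_[l]) hs
      simp only [map_mul, map_natCast, map_sub, map_neg, PadicInt.algebraMap_apply] at this
      rw [Units.val_mul, jl_tq]
      ext i k
      fin_cases i <;> fin_cases k <;>
        simp [Tw.Lc.tr, pO, nO, lc, dg_val, Matrix.mul_apply, Fin.sum_univ_two]
      linear_combination -this
    · refine hf.om_eq (j_io hl _ (mul_one _) sO ?_)
      rw [Units.val_mul, jl_tq]
      ext i k
      fin_cases i <;> fin_cases k <;>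
        simp [Tw.Lc.tr, pO, sO, lc, dg_val, Matrix.mul_apply, Fin.sum_univ_two]
  have h2 := hk_inv (Tw.Lc.L0.cor _ ⟨UU_mem one_pos, a⟩) hf.inv (TQ.j (kp N x)) _ (kp_mem x)
  rw [mul_inv_cancel_left, r.hk hf.inv, r.hk hf.inv] at h2
  refine h2.trans ?_
  rw [om, ← h1, ← sl_sum]
  exact Finset.sum_congr rfl fun i _ => by rw [← hf.lt, map_inv, inv_inv, lc_ι]

/-- the cocycle of the periods -/
def zc (m N : ℕ) [NeZero N] (f : ℍ → ℂ) (γ : G0) (x : G) : Vw ℂ Unit m :=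
  fun k => pf (2 * m) (om m N f x) (rr γ • I) (k ())

theorem zc_mem (hm : MDiff f) (hf : I0 m N f) : zc m N f ∈ TQ.Z1 (rw ℂ m) (UU N 1) := by
  refine ⟨fun γ x u hu => ?_, fun γ δ => ?_, fun γ hγ => ?_⟩
  · funext k
    rw [zc, zc, hf.inv x u hu]
  · funext x k
    have e : rr (γ * δ) = rr γ * rr δ := congrArg Subtype.val (map_mul TQ.r γ δ)
    simp only [Pi.add_apply, Tw.lt, rw_apply, zc, e, mul_smul, hf.lt]
    rw [pf_sl (om_md hm x)]
  · funext x k
    rw [zc, Z0_fix hγ, pf_I _ (om_md hm x)]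
    rfl

/-- the same, additive -/
def zL (m N : ℕ) [NeZero N] : MF N (2 * m + 2) →+ G0 → G → Vw ℂ Unit m :=
  AddMonoidHom.mk' (fun F => zc m N F) fun F F' => by
    funext γ x k
    have := pf_lin (2 * m) Finset.univ (g := fun b : Bool => om m N (cond b F F' : MF _ _) x)
      (fun b => om_md (ModularFormClass.holo _) x)
      (om_md (m := m) (N := N) (ModularFormClass.holo (F + F')) x)
      (c := 1) (by rw [one_smul]; simp only [om, sl_sum]; simp) (rr γ • I)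
    simpa [zc] using (congrFun this (k ())).symm

theorem tv_iff (F : MF N (2 * m + 2)) : Tv F ↔ I0 m N F := by
  refine ⟨fun h g hg => ?_, fun h l => DFunLike.coe_injective
    ((dia_coe _ l F).trans (h _ (gd_mem l.coprime)))⟩
  have hd : (g 0 0 : ZMod N) * g 1 1 = 1 := by
    have := congrArg (Int.cast : ℤ → ZMod N) g.det_coe
    rw [Matrix.det_fin_two] at this
    simpa [Gamma0_mem.1 hg] using this
  obtain ⟨l, h1, hl, e⟩ := Nat.forall_exists_prime_gt_and_eq_mod (IsUnit.of_mul_eq_one_right _ hd)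
    (2 * N)
  let L : PA N := ⟨l, hl, fun d => by
    have := Nat.le_of_dvd (by simpa using NeZero.pos N) d
    omega⟩
  rw [← dFun_eq L hg e.symm, ← dia_coe, h]

theorem hF_zL {F : MF N (2 * m + 2)} (h : Tv F) (l : PA N) :
    hF (Vw ℂ Unit m) l (zL m N F) = zL m N (((l.1 : ℂ) ^ m)⁻¹ • Tl _ l F) := by
  let _ := Fintype.ofFinite (IsLocalRing.ResidueField ℤ_[pr l])
  have hm : MDiff F := ModularFormClass.holo F
  have hf := (tv_iff F).1 h
  have r := (at_UU (M := 1) (pr_nd l) l.2.1.not_dvd_one).rep_To (UU_mem one_pos)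
  have e1 : ∀ j : ℕ, rr (tq 1 j l (by simpa using l.2.1.pos)) = up l.1 l.2.1.ne_zero j :=
    fun j => by
    ext i k
    fin_cases i <;> fin_cases k <;> simp [r_entry, tq_val, up, tri]
  have e2 : rr (tq l 0 1 (by simpa using l.2.1.pos)) = dn l.1 l.2.1.ne_zero := by
    ext i k
    fin_cases i <;> fin_cases k <;> simp [r_entry, tq_val, dn, tri]
  funext γ x k
  have h1 := fun x => om_hk hf (pr_nd l) x
  simp only [Cl.sl, rr_det, tq_val, Matrix.det_fin_two_of, Nat.cast_one, one_mul, mul_one,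
    mul_zero, sub_zero, Rat.cast_natCast, Complex.ofReal_natCast] at h1
  simp only [e1, e2, ← Finset.smul_sum, ← smul_add] at h1
  have h2 : ((((l.1 : ℂ) ^ m)⁻¹ • Tl _ l F : MF N (2 * m + 2)) : ℍ → ℂ) = _ :=
    congrArg (((l.1 : ℂ) ^ m)⁻¹ • ·) (Tl_coe _ l F)
  rw [tFun, ← dia_coe, h, ← inv_pow] at h2
  rw [← h2, inv_pow] at h1
  refine (congrFun (r.hk ((zc_mem hm hf).1 γ) x) k).trans ?_
  have := congrFun (pf_lin (2 * m) Finset.univ (fun i => om_md hm _)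
    (om_md (ModularFormClass.holo _) x) ((h1 x).trans (one_smul ℂ _).symm) (rr γ • I)) (k ())
  rw [Finset.sum_apply, one_smul] at this
  rw [Finset.sum_apply]
  exact this

theorem wF_zL {F : MF N (2 * m + 2)} (h : Tv F) (P : FreeAlgebra ℤ (PA N)) :
    wF N (Vw ℂ Unit m) P (zL m N F) = zL m N (wd N m P F) :=
  (lift_rel (fun l : PA N => ((l.1 : ℂ) ^ m)⁻¹ • Tl (2 * m + 2) l) (hF _)
    { carrier := {p | Tv p.1 ∧ p.2 = zL m N p.1}
      add_mem' := fun h h' => ⟨fun l => by rw [Prod.fst_add, map_add, h.1, h'.1], by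
        rw [Prod.snd_add, Prod.fst_add, map_add, h.2, h'.2]⟩
      zero_mem' := ⟨fun l => map_zero _, (map_zero _).symm⟩
      neg_mem' := fun h => ⟨fun l => by rw [Prod.fst_neg, map_neg, h.1], by
        rw [Prod.snd_neg, Prod.fst_neg, map_neg, h.2]⟩ }
    (fun l a a' e => ⟨fun l' => by
      rw [LinearMap.smul_apply, map_smul, e.1.tl l l'], (congrArg _ e.2).trans (hF_zL e.1 l)⟩) P F _ ⟨h, rfl⟩).2

theorem ex_MF (hf : IsMF (Gamma0 N) ((2 * m + 2 : ℕ) : ℤ) f) :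
    ∃ F : MF N (2 * m + 2), Tv F ∧ (F : ℍ → ℂ) = f := by
  let F : MF N (2 * m + 2) :=
    { toFun := f
      slash_action_eq' := by
        rintro _ ⟨γ, hγ, rfl⟩
        exact hf.slash γ (Gamma1_in_Gamma0 N hγ)
      holo' := mem_Hol.1 hf.hol
      bdd_at_cusps' := fun {c} hc => by
        rw [Subgroup.IsArithmetic.isCusp_iff_isCusp_SL2Z] at hc
        rw [OnePoint.isBoundedAt_iff_forall_SL2Z hc]
        exact fun γ _ => hf.bdd γ }
  exact ⟨F, (tv_iff F).2 hf.slash, rfl⟩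

theorem rw_iZ (γ : SL(2, ℤ)) (v : Vw ℂ Unit m) (k : Unit → Fin (2 * m + 1)) :
    rw ℂ m (iZ γ) v k = (sy (2 * m) (cx γ)).mulVec (fun j => v fun _ => j) (k ()) := by
  have e := cx_rr (m := m) (iZ γ)
  rw [rr_det, show (iZ γ).1.val.det = 1 from congrArg Units.val (det_iZ γ), rr, r_iZ] at e
  simp only [Rat.cast_one, Complex.ofReal_one, inv_one, one_pow, one_smul] at e
  rw [rw_apply]
  change _ = ∑ j, sy (2 * m) (cx (SpecialLinearGroup.mapGL ℝ γ)) (k ()) j * v fun _ => j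
  simp [e]

/-- every cocycle of `Γ₀(N)` comes from two modular forms -/
def Ont (N m : ℕ) : Prop := ∀ z : SL(2, ℤ) → Fin (2 * m + 1) → ℂ,
  (∀ γ ∈ Gamma0 N, ∀ δ ∈ Gamma0 N, z (γ * δ) = z γ + (sy (2 * m) (cx γ)).mulVec (z δ)) →
    ∃ f g v, IsMF (Gamma0 N) ((2 * m + 2 : ℕ) : ℤ) f ∧ IsMF (Gamma0 N) ((2 * m + 2 : ℕ) : ℤ) g ∧
      ∀ γ ∈ Gamma0 N, z γ = pf (2 * m) f (γ • I) + star (pf (2 * m) g (γ • I)) +
        ((sy (2 * m) (cx γ)).mulVec v - v)

theorem es_of (ho : Ont N m) {P : FreeAlgebra ℤ (PA N)} (h : ∀ f, Tv f → wd N m P f = 0)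
    (R : Type) [Field R] [Algebra ℚ R] : wH N (rw R m) P = 0 := by
  refine wH_desc ((wH_eq _ P).2 fun z hz => ?_) R
  obtain ⟨f, g, v, hf, hg, e⟩ := ho (fun γ k => z (iZ γ) 1 fun _ => k) fun γ hγ δ _ => by
    funext k
    have e1 := hz.1 (iZ δ) 1 _ (inv_mem (iZ_UU hγ))
    rw [one_mul] at e1
    simp only [map_mul, hz.2.1, Pi.add_apply, Tw.lt, mul_one, e1, rw_iZ]
  obtain ⟨F, hF, rfl⟩ := ex_MF hf
  obtain ⟨F', hF', rfl⟩ := ex_MF hg
  have h1 := zc_mem (m := m) (ModularFormClass.holo F) hf.slash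
  have h2 := Z1_map (starRingEnd ℂ).toAddMonoidHom (zc_mem (m := m) (ModularFormClass.holo F')
    hg.slash)
  have h3 := sub_mem (sub_mem hz h1) h2
  have h4 := wF_B1 _ P h3 (shap rw_Z0 h3 (fun k => v (k ())) fun γ hγ => funext fun k => by
    have := congrFun (e γ hγ) (k ())
    simp only [Pi.sub_apply, zc, I0.one hf.slash, I0.one hg.slash, rw_iZ,
      AddMonoidHom.compLeft_apply, Function.comp_apply]
    exact sub_eq_iff_eq_add'.2 (sub_eq_iff_eq_add'.2 (this.trans (add_assoc _ _ _))))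
  rw [map_sub, map_sub, wF_map] at h4
  have h5 := wF_zL hF P
  have h6 := wF_zL hF' P
  rw [h _ hF, map_zero] at h5
  rw [h _ hF', map_zero] at h6
  rw [show wF N (Vw ℂ Unit m) P (zc m N F) = 0 from h5,
    show wF N (Vw ℂ Unit m) P (zc m N F') = 0 from h6] at h4
  simp only [sub_zero, Pi.zero_apply, map_zero] at h4
  exact sub_zero (wF N (Vw ℂ Unit m) P z) ▸ h4

end Vale.Agent.P004M.Es
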