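import Vale.Agent.P004M.Es.All
import Vale.Agent.P004M.Wt0

/-! # P004M, row a5 in the words of `Wt0` -/

set_option autoImplicit false

namespace Vale.Agent.P004M.Es

open Vale.Agent.P022 Vale.Agent.P022K.Sh Vale.Agent.P022K.QT Vale.Agent.P022K.UC.Hm

theorem es5k {N m : ℕ} [NeZero N] {P : FreeAlgebra ℤ (PA N)} (h4 : 4 ∣ N)
    (h : ∀ f, Tv f → wd N m P f = 0) (R : Type) [Field R] [Algebra ℚ R] :
    Wt.Kil 0 (rw R m) P := fun z hz =>
  (Submodule.Quotient.mk_eq_zero (x := ⟨_, Wt.op_Z1 P hz⟩)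
    ((TQ.B1 (rw R m) _).submoduleOf (TQ.Z1 (rw R m) _))).1
    ((Wt.op_mk 0 P ⟨z, hz⟩).symm.trans (LinearMap.congr_fun (es5 h4 h R) _))

end Vale.Agent.P004M.Es
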