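import Vale.Agent.P022K.QT.ClA

/-!
# P004M, row a5: the Laplacian at a maximum, maxima of invariant functions, cusp forms at `i∞`
-/

set_option autoImplicit false

open UpperHalfPlane Polynomial Filter Topology
open scoped MatrixGroups ModularForm Manifold ComplexConjugate Real

noncomputable section

namespace Vale.Agent.P004M.Es

open Vale.Agent.P022 Vale.Agent.P022K.Sh Vale.Agent.P022K.QT.Cl

variable {a a' b b' φ φ' f g : ℍ → ℂ} {τ : ℍ} {L L' : ℂ}

theorem dv_md (h : Dv a a') : MDiff a := H227.hasDerivAt_iff_mdiff fun τ => (h τ).differentiableAt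

theorem dv_dv (h : Dv a a') : ∃ c, Dv a' c := by
  refine ⟨fun τ => deriv (deriv (a ∘ ofComplex)) τ, fun τ => ?_⟩
  have hn := isOpen_upperHalfPlaneSet.mem_nhds τ.im_pos
  refine (((UpperHalfPlane.mdifferentiable_iff.1 (dv_md h)).deriv
    isOpen_upperHalfPlaneSet).differentiableAt hn).hasDerivAt.congr_of_eventuallyEq ?_
  filter_upwards [hn] with z hz
  rw [Function.comp_apply, ofComplex_apply_of_im_pos hz]
  exact (h ⟨z, hz⟩).deriv.symm

theorem dv_mul (h : Dv a a') (h' : Dv b b') :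
    Dv (fun τ => a τ * b τ) fun τ => a' τ * b τ + a τ * b' τ := fun τ => by
  simpa [Function.comp_def] using (h τ).fun_mul (h' τ)

theorem dv_of {A : ℂ → ℂ} (h : ∀ τ : ℍ, HasDerivAt A (a' τ) τ) : Dv (fun τ => A τ) a' := fun τ => by
  refine (h τ).congr_of_eventuallyEq ?_
  filter_upwards [isOpen_upperHalfPlaneSet.mem_nhds τ.im_pos] with z hz
  rw [Function.comp_apply, ofComplex_apply_of_im_pos hz]

/-- the restriction to a line -/
def la (a : ℍ → ℂ) (τ : ℍ) (e : ℂ) (t : ℝ) : ℂ := a (ofComplex (τ + e * t))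

theorem la_dv (h : Dv a a') (τ : ℍ) (e : ℂ) :
    ∀ᶠ t in 𝓝 (0 : ℝ), HasDerivAt (la a τ e) (e * la a' τ e t) t := by
  have : ∀ᶠ t : ℝ in 𝓝 0, 0 < ((τ : ℂ) + e * t).im :=
    (by fun_prop : Continuous fun t : ℝ => ((τ : ℂ) + e * t).im).continuousAt.eventually
      (lt_mem_nhds (by simpa using τ.im_pos))
  filter_upwards [this] with t ht
  have h1 := (HasDerivAt.comp (t : ℂ) (h₂ := a ∘ ofComplex) (h ⟨_, ht⟩)
    (((hasDerivAt_id (t : ℂ)).const_mul e).const_add (τ : ℂ))).comp_ofReal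
  rw [la, ofComplex_apply_of_im_pos ht, mul_comm]
  rw [mul_one] at h1
  exact h1

/-- `∂ ∂̄ φ = L` at `τ` -/
def Lp (φ : ℍ → ℂ) (τ : ℍ) (L : ℂ) : Prop := ∃ ψ : ℝ → ℂ,
  (∀ᶠ t in 𝓝 (0 : ℝ), HasDerivAt (fun t => la φ τ 1 t + la φ τ Complex.I t) (ψ t) t) ∧
    HasDerivAt ψ (4 * L) 0

theorem Lp.add (h : Lp φ τ L) (h' : Lp φ' τ L') : Lp (fun s => φ s + φ' s) τ (L + L') := by
  obtain ⟨ψ, h1, h2⟩ := h
  obtain ⟨ψ', h1', h2'⟩ := h'
  refine ⟨ψ + ψ', ?_, mul_add 4 L L' ▸ h2.add h2'⟩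
  filter_upwards [h1, h1'] with t e e'
  refine (e.add e').congr_of_eventuallyEq (Eventually.of_forall fun s => ?_)
  simp only [la, Pi.add_apply]
  ring

theorem Lp.sum {ι : Type} (s : Finset ι) {φ : ι → ℍ → ℂ} {L : ι → ℂ} (h : ∀ i, Lp (φ i) τ (L i)) :
    Lp (fun t => ∑ i ∈ s, φ i t) τ (∑ i ∈ s, L i) := by
  classical
  induction s using Finset.induction_on with
  | empty => exact ⟨0, Eventually.of_forall fun t => by simpa [la] using hasDerivAt_const t (0 : ℂ),
      by simp⟩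
  | insert i s hi ih => simpa only [Finset.sum_insert hi] using (h i).add ih

theorem lp_mul (h : Dv a a') (h' : Dv b b') (τ : ℍ) :
    Lp (fun s => a s * conj (b s)) τ (a' τ * conj (b' τ)) := by
  obtain ⟨c, hc⟩ := dv_dv h
  obtain ⟨d, hd⟩ := dv_dv h'
  have k1 := fun e => ((la_dv h τ e).and (la_dv h' τ e)).mono fun t ht => ht.1.fun_mul ht.2.star
  have k2 := fun e =>
    ((((la_dv hc τ e).self_of_nhds.const_mul e).fun_mul (la_dv h' τ e).self_of_nhds.star).fun_add
      ((la_dv h τ e).self_of_nhds.fun_mul ((la_dv hd τ e).self_of_nhds.const_mul e).star))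
  refine ⟨_, ((k1 1).and (k1 Complex.I)).mono fun t ht => ht.1.fun_add ht.2,
    ((k2 1).fun_add (k2 Complex.I)).congr_deriv ?_⟩
  simp only [la, Complex.ofReal_zero, mul_zero, add_zero, ofComplex_apply, star_mul', one_mul,
    RCLike.star_def, Complex.conj_I]
  linear_combination (c τ * conj (b τ) - 2 * a' τ * conj (b' τ) + a τ * conj (d τ)) * Complex.I_mul_I

theorem Lp.le (h : Lp φ τ L) (hm : ∀ s, (φ s).re ≤ (φ τ).re) : L.re ≤ 0 := by
  obtain ⟨ψ, h1, h2⟩ := h
  by_contra! hc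
  set p : ℝ → ℝ := fun t => (la φ τ 1 t + la φ τ Complex.I t).re
  have h3 : ∀ᶠ t in 𝓝 (0 : ℝ), HasDerivAt p (ψ t).re t := h1.mono fun t ht =>
    Complex.reCLM.hasFDerivAt.comp_hasDerivAt t ht
  have h4 : HasDerivAt (deriv p) (4 * L).re 0 :=
    (Complex.reCLM.hasFDerivAt.comp_hasDerivAt 0 h2).congr_of_eventuallyEq
      (h3.mono fun t ht => ht.deriv)
  have h5 : IsLocalMax p 0 := Eventually.of_forall fun t => by
    simpa [p, la] using add_le_add (hm _) (hm _)
  have h6 := isLocalMin_of_deriv_deriv_pos (by rw [h4.deriv]; simpa using hc) h5.deriv_eq_zero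
    h3.self_of_nhds.continuousAt
  have h7 : p =ᶠ[𝓝 0] fun _ => p 0 := (h5.and h6).mono fun t ht => le_antisymm ht.1 ht.2
  have h8 := h4.deriv.symm.trans h7.deriv.deriv_eq
  simp at h8
  exact hc.ne' h8

/-- an invariant function which tends to zero at the cusps has a maximum -/
theorem ex_max (Γ : Subgroup SL(2, ℤ)) [Γ.FiniteIndex] {h : ℍ → ℝ} (hc : Continuous h)
    (h0 : ∀ τ, 0 ≤ h τ) (hi : ∀ γ ∈ Γ, ∀ τ, h (γ • τ) = h τ)
    (hz : ∀ δ : SL(2, ℤ), Tendsto (fun τ => h (δ • τ)) atImInfty (𝓝 0)) :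
    ∃ τ, ∀ s, h s ≤ h τ := by
  by_cases h1 : ∀ τ, h τ = 0
  · exact ⟨I, fun s => by rw [h1, h1]⟩
  obtain ⟨t, ht⟩ := not_forall.1 h1
  obtain ⟨A, hA⟩ := (atImInfty_mem _).1 (eventually_all.2 fun q : SL(2, ℤ) ⧸ Γ =>
    (hz q.out⁻¹).eventually (gt_mem_nhds ((h0 t).lt_of_ne' ht)))
  obtain ⟨τ, -, hτ⟩ := ((isCompact_iUnion fun q : SL(2, ℤ) ⧸ Γ =>
    (ModularGroup.isCompact_truncatedFundamentalDomain A).image
      (continuous_const_smul ((q.out⁻¹ : SL(2, ℤ)) : GL (Fin 2) ℝ))).insert t).exists_isMaxOn ⟨t, Set.mem_insert _ _⟩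
    hc.continuousOn
  refine ⟨τ, fun s => ?_⟩
  obtain ⟨γ, hγ⟩ := ModularGroup.exists_smul_mem_fd s
  obtain ⟨k, hk⟩ := QuotientGroup.mk_out_eq_mul Γ γ
  have e : h s = h ((QuotientGroup.mk γ : SL(2, ℤ) ⧸ Γ).out⁻¹ • γ • s) := by
    rw [hk, mul_inv_rev, mul_smul, inv_smul_smul, hi _ (Γ.inv_mem k.2)]
  rw [e]
  rcases le_total A (γ • s).im with h2 | h2
  · exact (hA _ h2 _).le.trans (hτ (Set.mem_insert _ _))
  · exact hτ (Set.mem_insert_of_mem _ (Set.mem_iUnion.2 ⟨_, _, ⟨hγ, h2⟩, rfl⟩))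

/-- holomorphic, periodic, zero at `i∞` -/
structure Ec (n : ℝ) (g : ℍ → ℂ) : Prop where
  md : MDiff g
  pe : Function.Periodic (g ∘ ofComplex) n
  ze : IsZeroAtImInfty g

variable {n : ℝ}

theorem Ec.prim (hn : 0 < n) (h : Ec n g) : ∃ G, Ec n G ∧ Dv G g := by
  have h0 : (n : ℂ) ≠ 0 := Complex.ofReal_ne_zero.2 hn.ne'
  have hd := differentiableOn_cuspFunction_ball hn h.pe h.md h.ze.isBoundedAtImInfty
  have hb : Metric.ball (0 : ℂ) 1 ∈ 𝓝 (0 : ℂ) := Metric.ball_mem_nhds _ one_pos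
  obtain ⟨H, e, hH⟩ := ((Complex.differentiableOn_dslope hb).2 hd).isExactOn_ball.with_val_at 0 0
  have k0 : cuspFunction n g 0 = 0 := tendsto_nhds_unique
    (((hd.differentiableAt hb).continuousAt.tendsto.comp (qParam_tendsto_atImInfty hn)).congr
      fun τ => eq_cuspFunction τ hn.ne' h.pe) h.ze
  have hD : Dv (fun τ => n / (2 * π * Complex.I) * H (Function.Periodic.qParam n τ)) g := by
    refine dv_of (A := fun z => n / (2 * π * Complex.I) * H (Function.Periodic.qParam n z))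
      fun τ => ?_
    have h1 : HasDerivAt (Function.Periodic.qParam n)
        (Function.Periodic.qParam n τ * (2 * π * Complex.I / n)) τ := by
      simpa only [id_eq, mul_one] using! (((hasDerivAt_id (τ : ℂ)).const_mul _).div_const _).cexp
    refine (((hH _ (mem_ball_zero_iff.2 (Function.Periodic.norm_qParam_lt_one hn τ.2))).comp _
      h1).const_mul _).congr_deriv ?_
    have h4 := sub_smul_dslope (cuspFunction n g) 0 (Function.Periodic.qParam n τ)
    rw [k0, eq_cuspFunction τ hn.ne' h.pe, sub_zero, sub_zero, smul_eq_mul] at h4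
    rw [← h4]
    field_simp
  refine ⟨_, ⟨dv_md hD, fun z => ?_, ?_⟩, hD⟩
  · by_cases hz : 0 < z.im
    · simp only [Function.comp_apply, ofComplex_apply_of_im_pos hz,
        ofComplex_apply_of_im_pos (show 0 < (z + n).im by simpa using hz), coe_mk,
        Function.Periodic.qParam]
      rw [mul_add, add_div, mul_div_assoc _ (n : ℂ), div_self h0, mul_one, Complex.exp_add,
        Complex.exp_two_pi_mul_I, mul_one]
    · simp only [Function.comp_apply, ofComplex_apply_of_im_nonpos (not_lt.1 hz),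
        ofComplex_apply_of_im_nonpos (show (z + n).im ≤ 0 by simpa using hz)]
  · have := ((hH 0 (Metric.mem_ball_self one_pos)).continuousAt.tendsto.comp
      (qParam_tendsto_atImInfty hn)).const_mul (n / (2 * π * Complex.I))
    rwa [e, mul_zero] at this

theorem Ec.bdd (hn : 0 < n) (h : Ec n g) (w : ℕ) :
    IsBoundedAtImInfty fun τ : ℍ => ((τ : ℂ) - conj (τ : ℂ)) ^ w * g τ := by
  have h1 := h.ze.exp_decay_atImInfty hn h.pe h.md h.ze.isBoundedAtImInfty
  have h2 : (fun τ : ℍ => ((τ : ℂ) - conj (τ : ℂ)) ^ w) =O[atImInfty]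
      fun τ => (2 * π * τ.im / n) ^ w :=
    Asymptotics.IsBigO.pow (Asymptotics.IsBigO.of_bound (n / π) (Eventually.of_forall fun τ => by
      rw [Complex.sub_conj, Real.norm_of_nonneg (by have := τ.im_pos; positivity)]
      simp [abs_of_pos τ.im_pos]
      field_simp
      exact le_rfl)) w
  refine (h2.mul h1).trans (Tendsto.isBigO_one ℝ (c := 0) ?_)
  have h3 : Tendsto (fun τ : ℍ => 2 * π * τ.im / n) atImInfty atTop :=
    (tendsto_comap.const_mul_atTop (by positivity)).atTop_div_const hn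
  refine ((Real.tendsto_pow_mul_exp_neg_atTop_nhds_zero w).comp h3).congr fun τ => ?_
  simp [neg_div]

end Vale.Agent.P004M.Es
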